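import Vale.Agent.P371.H1

/-!
# P371: the extremal one bound state
-/

namespace Vale.Agent.P371

open Real MeasureTheory Filter Topology

/-! ### Integration by parts for an indefinite integral -/

private lemma parts_real {f g v dv : ℝ → ℝ} {a b : ℝ} (hg : IntervalIntegrable g volume a b)
    (hf : ∀ x, f x = f a + ∫ t in a..x, g t) (hv : ∀ x, HasDerivAt v (dv x) x)
    (hdv : Continuous dv) :
    ∫ x in a..b, g x * v x + f x * dv x = f b * v b - f a * v a := by
  have hfa : AbsolutelyContinuousOnInterval f a b := by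
    have h1 := hg.absolutelyContinuousOnInterval_intervalIntegral (c := a) Set.left_mem_uIcc
    have h2 : AbsolutelyContinuousOnInterval (fun _ : ℝ => f a) a b :=
      LipschitzOnWith.absolutelyContinuousOnInterval (K := 0)
        (LipschitzWith.const (f a)).lipschitzOnWith
    have e : f = fun x => f a + ∫ t in a..x, g t := funext hf
    rw [e]
    simpa using h2.fun_add h1
  have hva : AbsolutelyContinuousOnInterval v a b := by
    have h1 := (hdv.intervalIntegrable (μ := volume) a b).absolutelyContinuousOnInterval_intervalIntegral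
      (c := a) Set.left_mem_uIcc
    have h2 : AbsolutelyContinuousOnInterval (fun _ : ℝ => v a) a b :=
      LipschitzOnWith.absolutelyContinuousOnInterval (K := 0)
        (LipschitzWith.const (v a)).lipschitzOnWith
    have e : v = fun x => v a + ∫ t in a..x, dv t := funext fun x => by
      rw [intervalIntegral.integral_eq_sub_of_hasDerivAt (fun t _ => hv t)
        (hdv.intervalIntegrable a x), add_sub_cancel]
    rw [e]
    exact h2.fun_add h1
  rw [← hfa.integral_deriv_mul_eq_sub hva]
  refine intervalIntegral.integral_congr_ae ?_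
  filter_upwards [hg.ae_hasDerivAt_integral] with x hx hx'
  have hd : HasDerivAt f (g x) x := by
    have := (hx (Set.uIoc_subset_uIcc hx') a Set.left_mem_uIcc).const_add (f a)
    rwa [← funext hf] at this
  rw [hd.deriv, (hv x).deriv]

private lemma parts_H1 {f g : ℝ → ℂ} (h : MemH1 f g) {v dv : ℝ → ℝ}
    (hv : ∀ x, HasDerivAt v (dv x) x) (hdv : Continuous dv) (a b : ℝ) :
    ∫ x in a..b, g x * (v x : ℂ) + f x * (dv x : ℂ) = f b * (v b : ℂ) - f a * (v a : ℂ) := by
  have hgi : ∀ a b, IntervalIntegrable g volume a b := fun a b => by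
    rw [intervalIntegrable_iff]
    exact (h.2.1.locallyIntegrable (by norm_num)).integrableOn_isCompact isCompact_uIcc
      |>.mono_set Set.uIoc_subset_uIcc
  have hfc : Continuous f := h.continuous
  have hvc : Continuous v := continuous_iff_continuousAt.2 fun x => (hv x).continuousAt
  have hi : IntervalIntegrable (fun x => g x * (v x : ℂ) + f x * (dv x : ℂ)) volume a b :=
    ((hgi a b).mul_continuousOn (Complex.continuous_ofReal.comp hvc).continuousOn).add
      ((hfc.mul (Complex.continuous_ofReal.comp hdv)).intervalIntegrable a b)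
  have key : ∀ L : ℂ →L[ℝ] ℝ, L (∫ x in a..b, g x * (v x : ℂ) + f x * (dv x : ℂ))
      = L (f b * (v b : ℂ) - f a * (v a : ℂ)) := by
    intro L
    have hmul : ∀ (z : ℂ) (r : ℝ), L (z * (r : ℂ)) = L z * r := fun z r => by
      rw [mul_comm z, ← Complex.real_smul, map_smul, smul_eq_mul, mul_comm]
    rw [← L.intervalIntegral_comp_comm hi, map_sub, hmul, hmul]
    simp only [map_add, hmul]
    refine parts_real (f := fun x => L (f x)) (g := fun x => L (g x))
      ⟨L.integrable_comp (hgi a b).1, L.integrable_comp (hgi a b).2⟩ (fun x => ?_) hv hdv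
    rw [L.intervalIntegral_comp_comm (hgi a x), h.2.2, map_sub, add_sub_cancel]
  exact Complex.ext (key Complex.reCLM) (key Complex.imCLM)

/-! ### Hyperbolic integrals -/

/-- `1 / cosh (2 x)`. -/
private noncomputable def sech2 (x : ℝ) : ℝ := 1 / cosh (2 * x)

private lemma hasDerivAt_cosh2 (x : ℝ) :
    HasDerivAt (fun y => cosh (2 * y)) (2 * sinh (2 * x)) x := by
  simpa [mul_comm] using ((hasDerivAt_id x).const_mul (2 : ℝ)).cosh

private lemma hasDerivAt_sinh2 (x : ℝ) :
    HasDerivAt (fun y => sinh (2 * y)) (2 * cosh (2 * x)) x := by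
  simpa [mul_comm] using ((hasDerivAt_id x).const_mul (2 : ℝ)).sinh

private lemma continuous_sech2 : Continuous sech2 :=
  continuous_const.div (continuous_cosh.comp (continuous_const.mul continuous_id))
    fun _ => (cosh_pos _).ne'

private lemma sech2_pos (x : ℝ) : 0 < sech2 x := one_div_pos.2 (cosh_pos _)

private lemma sech2_le_one (x : ℝ) : sech2 x ≤ 1 := (div_le_one (cosh_pos _)).2 (one_le_cosh _)

private lemma hasDerivAt_arctan_sinh2 (x : ℝ) :
    HasDerivAt (fun y => arctan (sinh (2 * y)) / 2) (sech2 x) x := by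
  have h := ((hasDerivAt_sinh2 x).arctan).div_const 2
  refine h.congr_deriv ?_
  unfold sech2
  have := cosh_sq (2 * x)
  have := cosh_pos (2 * x)
  field_simp
  nlinarith

private lemma tendsto_sinh2 : Tendsto (fun x : ℝ => sinh (2 * x)) atTop atTop := by
  refine tendsto_atTop_mono' _ ?_ (tendsto_id.const_mul_atTop (two_pos (α := ℝ)))
  filter_upwards [eventually_ge_atTop (0 : ℝ)] with x hx
  exact self_le_sinh_iff.2 (by simpa using hx)

private lemma tendsto_sinh2_bot : Tendsto (fun x : ℝ => sinh (2 * x)) atBot atBot := by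
  have h := (tendsto_neg_atTop_atBot.comp (tendsto_sinh2.comp tendsto_neg_atBot_atTop))
  refine h.congr fun x => ?_
  simp [Real.sinh_neg]

private lemma tendsto_F1 : Tendsto (fun x : ℝ => arctan (sinh (2 * x)) / 2) atTop (𝓝 (π / 4)) := by
  have := ((tendsto_nhds_of_tendsto_nhdsWithin tendsto_arctan_atTop).comp tendsto_sinh2).div_const 2
  rwa [show π / 2 / 2 = π / 4 by ring] at this

private lemma tendsto_F1_bot :
    Tendsto (fun x : ℝ => arctan (sinh (2 * x)) / 2) atBot (𝓝 (-(π / 4))) := by
  have := ((tendsto_nhds_of_tendsto_nhdsWithin tendsto_arctan_atBot).comp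
    tendsto_sinh2_bot).div_const 2
  rwa [show -(π / 2) / 2 = -(π / 4) by ring] at this

private lemma integrable_sech2 : Integrable sech2 := by
  have h1 : IntegrableOn sech2 (Set.Ioi 0) :=
    integrableOn_Ioi_deriv_of_nonneg' (fun x _ => hasDerivAt_arctan_sinh2 x)
      (fun x _ => (sech2_pos x).le) tendsto_F1
  have heven : ∀ x, sech2 (-x) = sech2 x := fun x => by simp [sech2, mul_neg]
  have h2 : IntegrableOn sech2 (Set.Iic 0) := by
    rw [integrableOn_Iic_iff_integrableOn_Iio]
    have h3 := ((Measure.measurePreserving_neg (volume : Measure ℝ)).integrableOn_comp_preimage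
      (Homeomorph.neg ℝ).measurableEmbedding (f := sech2) (s := Set.Ioi 0)).2 h1
    simpa [Function.comp_def, heven] using h3
  rw [← integrableOn_univ, ← Set.Iic_union_Ioi (a := (0 : ℝ))]
  exact h2.union h1

private lemma integral_sech2 : ∫ x, sech2 x = π / 2 := by
  rw [integral_of_hasDerivAt_of_tendsto hasDerivAt_arctan_sinh2 integrable_sech2 tendsto_F1_bot
    tendsto_F1]
  ring

private lemma integrable_sech2_cube : Integrable (fun x => sech2 x ^ 3) := by
  refine integrable_sech2.mono' (continuous_sech2.pow 3).aestronglyMeasurable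
    (Eventually.of_forall fun x => ?_)
  rw [Real.norm_eq_abs, abs_of_nonneg (pow_nonneg (sech2_pos x).le 3)]
  exact pow_le_of_le_one (sech2_pos x).le (sech2_le_one x) (by norm_num)

private lemma integral_sech2_cube : ∫ x, sech2 x ^ 3 = π / 4 := by
  set F : ℝ → ℝ := fun x => sinh (2 * x) / (4 * cosh (2 * x) ^ 2) + arctan (sinh (2 * x)) / 2 / 2
    with hF
  have hd : ∀ x, HasDerivAt F (sech2 x ^ 3) x := fun x => by
    have h := ((hasDerivAt_sinh2 x).div (((hasDerivAt_cosh2 x).pow 2).const_mul 4)
      (mul_ne_zero four_ne_zero (pow_ne_zero 2 (cosh_pos (2 * x)).ne'))).add ((hasDerivAt_arctan_sinh2 x).div_const 2)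
    refine h.congr_deriv ?_
    have h1 := cosh_sq (2 * x)
    have h2 := (cosh_pos (2 * x)).ne'
    have h3 : sinh (2 * x) ^ 2 = cosh (2 * x) ^ 2 - 1 := by linarith
    unfold sech2
    simp only [Nat.cast_ofNat, Nat.add_one_sub_one, pow_one, Pi.pow_apply]
    field_simp
    ring_nf
    rw [show sinh (x * 2) ^ 2 = cosh (x * 2) ^ 2 - 1 by rw [mul_comm]; exact h3]
    ring
  have hz : ∀ (l : Filter ℝ), Tendsto (fun x => 1 / cosh (2 * x)) l (𝓝 0) →
      Tendsto (fun x => sinh (2 * x) / (4 * cosh (2 * x) ^ 2)) l (𝓝 0) := by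
    intro l hl
    refine squeeze_zero_norm (fun x => ?_) hl
    have hc := cosh_pos (2 * x)
    rw [Real.norm_eq_abs, abs_div, abs_of_pos (show 0 < 4 * cosh (2 * x) ^ 2 by positivity),
      div_le_div_iff₀ (by positivity) hc]
    have : |sinh (2 * x)| ≤ cosh (2 * x) :=
      abs_le_of_sq_le_sq (by linarith [cosh_sq (2 * x)]) hc.le
    nlinarith
  have hc : Tendsto (fun x : ℝ => cosh (2 * x)) atTop atTop :=
    tendsto_atTop_mono (fun x => (sinh_lt_cosh _).le) tendsto_sinh2
  have hc' : Tendsto (fun x : ℝ => cosh (2 * x)) atBot atTop := by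
    refine (hc.comp tendsto_neg_atBot_atTop).congr fun x => ?_
    simp [mul_neg]
  have t1 := (hz _ (Tendsto.const_div_atTop hc 1)).add (tendsto_F1.div_const 2)
  have t2 := (hz _ (Tendsto.const_div_atTop hc' 1)).add (tendsto_F1_bot.div_const 2)
  rw [integral_of_hasDerivAt_of_tendsto hd integrable_sech2_cube t2 t1]
  ring

/-! ### The bound state -/

/-- The profile `cosh (2 x) ^ (-1/2)`, normalised. -/
private noncomputable def prof (x : ℝ) : ℝ := √(2 / π) / √(cosh (2 * x))

/-- Its derivative. -/
private noncomputable def dprof (x : ℝ) : ℝ := -(prof x * (sinh (2 * x) / cosh (2 * x)))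

/-- The potential. -/
private noncomputable def pot (x : ℝ) : ℝ := 3 * sech2 x ^ 2

private lemma hasDerivAt_prof (x : ℝ) : HasDerivAt prof (dprof x) x := by
  have hc := cosh_pos (2 * x)
  have h := (hasDerivAt_const x (√(2 / π))).div ((hasDerivAt_cosh2 x).sqrt hc.ne')
    (sqrt_ne_zero'.2 hc)
  refine h.congr_deriv ?_
  unfold dprof prof
  have hs := sqrt_ne_zero'.2 hc
  field_simp
  rw [sq_sqrt hc.le]
  ring

private lemma hasDerivAt_dprof (x : ℝ) :
    HasDerivAt dprof ((1 - pot x) * prof x) x := by
  have hc := cosh_pos (2 * x)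
  have h := ((hasDerivAt_prof x).mul ((hasDerivAt_sinh2 x).div (hasDerivAt_cosh2 x) hc.ne')).neg
  refine h.congr_deriv ?_
  have h3 : sinh (2 * x) ^ 2 = cosh (2 * x) ^ 2 - 1 := by linarith [cosh_sq (2 * x)]
  simp only [Pi.div_apply, dprof, pot, sech2]
  field_simp
  linear_combination (3 * prof x) * h3

private lemma prof_sq (x : ℝ) : prof x ^ 2 = 2 / π * sech2 x := by
  rw [prof, div_pow, sq_sqrt (by positivity), sq_sqrt (cosh_pos _).le, sech2, mul_one_div]

private lemma abs_dprof_le (x : ℝ) : |dprof x| ≤ |prof x| := by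
  have hc := cosh_pos (2 * x)
  rw [dprof, abs_neg, abs_mul]
  refine mul_le_of_le_one_right (abs_nonneg _) ?_
  rw [abs_div, abs_of_pos hc, div_le_one hc]
  exact abs_le_of_sq_le_sq (by linarith [cosh_sq (2 * x)]) hc.le

private lemma abs_prof_le (x : ℝ) : |prof x| ≤ 1 := by
  refine abs_le_of_sq_le_sq ?_ zero_le_one
  rw [prof_sq, one_pow]
  calc 2 / π * sech2 x ≤ 1 * 1 := mul_le_mul ((div_le_one pi_pos).2 two_le_pi) (sech2_le_one x)
        (sech2_pos x).le zero_le_one
    _ = 1 := one_mul 1

private lemma continuous_prof : Continuous prof :=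
  continuous_iff_continuousAt.2 fun x => (hasDerivAt_prof x).continuousAt

private lemma continuous_dprof : Continuous dprof :=
  continuous_iff_continuousAt.2 fun x => (hasDerivAt_dprof x).continuousAt

private lemma continuous_pot : Continuous pot := continuous_const.mul (continuous_sech2.pow 2)

private lemma pot_rpow (x : ℝ) : pot x ^ (3 / 2 : ℝ) = 3 * √3 * sech2 x ^ 3 := by
  have h0 := (sech2_pos x).le
  rw [show pot x = (√3 * sech2 x) ^ (2 : ℕ) by
      rw [mul_pow, sq_sqrt (by norm_num)]; rfl,
    ← rpow_natCast, ← rpow_mul (by positivity),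
    show ((2 : ℕ) : ℝ) * (3 / 2) = ((3 : ℕ) : ℝ) by norm_num, rpow_natCast, mul_pow,
    pow_succ, sq_sqrt (by norm_num)]

private lemma memLp_of_sq_le {f : ℝ → ℝ} (hf : Continuous f) (h : ∀ x, |f x| ≤ |prof x|) :
    MemLp (fun x => (f x : ℂ)) 2 volume := by
  refine (memLp_two_iff_integrable_sq_norm
    (Complex.continuous_ofReal.comp hf).aestronglyMeasurable).2 ?_
  refine (integrable_sech2.const_mul (2 / π)).mono'
    ((Complex.continuous_ofReal.comp hf).norm.pow 2).aestronglyMeasurable
    (Eventually.of_forall fun x => ?_)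
  rw [Real.norm_eq_abs, abs_of_nonneg (sq_nonneg _), Function.comp_apply, Complex.norm_real,
    Real.norm_eq_abs, ← prof_sq, sq_abs]
  exact sq_le_sq.2 (h x)

/-- The potential `3 sech²(2x)` has the eigenvalue `-1` and attains the ratio. -/
theorem ratio_attained : 4 / (3 * √3 * π) ∈ ratios := by
  set u : ℝ → ℂ := fun x => (prof x : ℂ) with hu
  set du : ℝ → ℂ := fun x => (dprof x : ℂ) with hdu
  have hpot : IsPotential pot :=
    ⟨continuous_pot.measurable, fun x => mul_nonneg (by norm_num) (sq_nonneg _), by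
      simp only [pot_rpow]; exact integrable_sech2_cube.const_mul _⟩
  have hint : ∫ x, pot x ^ (3 / 2 : ℝ) = 3 * √3 * (π / 4) := by
    simp only [pot_rpow]
    rw [integral_const_mul, integral_sech2_cube]
  have hH1 : MemH1 u du := ⟨memLp_of_sq_le continuous_prof fun _ => le_rfl,
    memLp_of_sq_le continuous_dprof abs_dprof_le, fun a b => by
      simp only [hu, hdu]
      rw [intervalIntegral.integral_ofReal, intervalIntegral.integral_eq_sub_of_hasDerivAt
        (fun t _ => hasDerivAt_prof t) (continuous_dprof.intervalIntegrable a b),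
        Complex.ofReal_sub]⟩
  have heig : IsEigenfunction pot (-1) u := by
    refine ⟨du, hH1, fun φ dφ hφ => ?_⟩
    -- products of square integrable functions
    have hmul : ∀ {f : ℝ → ℂ} {w : ℝ → ℂ}, MemLp f 2 volume → MemLp w 2 volume →
        Integrable (fun x => starRingEnd ℂ (f x) * w x) := fun {f w} hf hw =>
      MemLp.integrable_mul (p := 2) (q := 2) hf.star hw
    have i1 := hmul hφ.2.1 hH1.2.1
    have i2 := hmul hφ.1 hH1.1
    have i3 : Integrable (fun x => (pot x : ℂ) * (starRingEnd ℂ (φ x) * u x)) :=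
      hφ.integrable_potential_mul hpot hH1
    have hwhole : ∫ x, (starRingEnd ℂ (dφ x) * du x +
        (starRingEnd ℂ (φ x) * u x - (pot x : ℂ) * (starRingEnd ℂ (φ x) * u x))) = 0 := by
      obtain ⟨a, b, ha, hb, hfa, hfb⟩ := exists_seq_small
        ((memLp_two_iff_integrable_sq_norm hφ.1.aestronglyMeasurable).1 hφ.1)
        (fun x => sq_nonneg ‖φ x‖)
      refine tendsto_nhds_unique (intervalIntegral_tendsto_integral (i1.add (i2.sub i3)) ha hb) ?_
      have e : ∀ n, ∫ x in a n..b n, (starRingEnd ℂ (dφ x) * du x +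
          (starRingEnd ℂ (φ x) * u x - (pot x : ℂ) * (starRingEnd ℂ (φ x) * u x)))
          = starRingEnd ℂ (φ (b n) * (dprof (b n) : ℂ) - φ (a n) * (dprof (a n) : ℂ)) := by
        intro n
        rw [← parts_H1 hφ hasDerivAt_dprof
          ((continuous_const.sub continuous_pot).mul continuous_prof) (a n) (b n),
          ← intervalIntegral.intervalIntegral_conj]
        refine intervalIntegral.integral_congr fun x _ => ?_
        simp only [hu, hdu, map_add, map_mul, Complex.conj_ofReal]
        push_cast
        ring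
      simp only [e]
      rw [← map_zero (starRingEnd ℂ)]
      refine ((Complex.continuous_conj.tendsto _).comp ?_)
      have hlim : ∀ c : ℕ → ℝ, Tendsto (fun n => ‖φ (c n)‖ ^ 2) atTop (𝓝 0) →
          Tendsto (fun n => φ (c n) * (dprof (c n) : ℂ)) atTop (𝓝 0) := by
        intro c hc
        have h1 : Tendsto (fun n => ‖φ (c n)‖) atTop (𝓝 0) := by
          simpa [sqrt_sq] using hc.sqrt
        refine squeeze_zero_norm (fun n => ?_) h1
        rw [norm_mul, Complex.norm_real, Real.norm_eq_abs]
        exact mul_le_of_le_one_right (norm_nonneg _)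
          ((abs_dprof_le _).trans (abs_prof_le _))
      simpa using (hlim b hfb).sub (hlim a hfa)
    rw [integral_add i1 (by exact i2.sub i3), integral_sub i2 i3] at hwhole
    push_cast
    linear_combination hwhole
  refine ⟨pot, 1, fun _ => -1, fun _ => u, hpot, ?_, ⟨fun i => ⟨by norm_num, heig⟩,
    fun i j => ?_⟩, ?_⟩
  · rw [hint]; positivity
  · rw [if_pos (Subsingleton.elim i j)]
    have e : (fun x => starRingEnd ℂ (u x) * u x) = fun x => ((prof x ^ 2 : ℝ) : ℂ) := by
      funext x
      simp only [hu, Complex.conj_ofReal]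
      push_cast
      ring
    rw [e, integral_complex_ofReal]
    simp only [prof_sq]
    rw [integral_const_mul, integral_sech2, show 2 / π * (π / 2) = 1 by field_simp,
      Complex.ofReal_one]
  · rw [hint, Fin.sum_univ_one, abs_neg, abs_one]
    field_simp

end Vale.Agent.P371
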