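import Vale.Agent.P371.Defs

/-!
# P371: elementary facts about `H¹` functions on the line
-/

namespace Vale.Agent.P371

open MeasureTheory Filter Set

lemma MemH1.locallyIntegrable {f g : ℝ → ℂ} (h : MemH1 f g) : LocallyIntegrable g :=
  h.2.1.locallyIntegrable (by norm_num)

lemma MemH1.intervalIntegrable {f g : ℝ → ℂ} (h : MemH1 f g) (a b : ℝ) :
    IntervalIntegrable g volume a b :=
  (h.locallyIntegrable.integrableOn_isCompact isCompact_uIcc).intervalIntegrable

lemma MemH1.eq_add {f g : ℝ → ℂ} (h : MemH1 f g) (a x : ℝ) :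
    f x = f a + ∫ t in a..x, g t := by
  rw [h.2.2 a x]; ring

lemma MemH1.continuous {f g : ℝ → ℂ} (h : MemH1 f g) : Continuous f := by
  have : f = fun x => f 0 + ∫ t in (0:ℝ)..x, g t := funext fun x => h.eq_add 0 x
  rw [this]
  exact continuous_const.add (intervalIntegral.continuous_primitive h.intervalIntegrable 0)

lemma MemH1.integrable_normSq {f g : ℝ → ℂ} (h : MemH1 f g) :
    Integrable (fun x => ‖f x‖ ^ 2) :=
  h.1.integrable_norm_pow (p := 2) (by norm_num)

lemma MemH1.integrable_deriv_normSq {f g : ℝ → ℂ} (h : MemH1 f g) :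
    Integrable (fun x => ‖g x‖ ^ 2) :=
  h.2.1.integrable_norm_pow (p := 2) (by norm_num)

/-- Pointwise bound by the two energies. -/
lemma MemH1.norm_le {f g : ℝ → ℂ} (h : MemH1 f g) (x : ℝ) :
    ‖f x‖ ≤ 2 + (∫ t, ‖f t‖ ^ 2) + ∫ t, ‖g t‖ ^ 2 := by
  have hx : x ≤ x + 1 := by linarith
  have hg : IntervalIntegrable (fun t => ‖g t‖) volume x (x + 1) :=
    (h.intervalIntegrable x (x + 1)).norm
  have hf : IntervalIntegrable (fun t => ‖f t‖) volume x (x + 1) :=
    h.continuous.norm.intervalIntegrable _ _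
  have key : ∀ y ∈ Icc x (x + 1), ‖f x‖ ≤ ‖f y‖ + ∫ t in x..x + 1, ‖g t‖ := by
    intro y hy
    have e : f x = f y - ∫ t in x..y, g t := by rw [h.2.2 x y]; ring
    have b1 : ‖∫ t in x..y, g t‖ ≤ ∫ t in x..y, ‖g t‖ :=
      intervalIntegral.norm_integral_le_integral_norm hy.1
    have b2 : ∫ t in x..y, ‖g t‖ ≤ ∫ t in x..x + 1, ‖g t‖ :=
      intervalIntegral.integral_mono_interval le_rfl hy.1 hy.2
        (Eventually.of_forall fun t => norm_nonneg _) hg
    calc ‖f x‖ = ‖f y - ∫ t in x..y, g t‖ := by rw [← e]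
      _ ≤ ‖f y‖ + ‖∫ t in x..y, g t‖ := norm_sub_le _ _
      _ ≤ _ := by linarith
  have avgle : ∫ _y in x..x + 1, ‖f x‖ ≤
      ∫ y in x..x + 1, (‖f y‖ + ∫ t in x..x + 1, ‖g t‖) :=
    intervalIntegral.integral_mono_on hx intervalIntegrable_const
      (hf.add intervalIntegrable_const) key
  rw [intervalIntegral.integral_const, intervalIntegral.integral_add hf intervalIntegrable_const,
    intervalIntegral.integral_const] at avgle
  simp only [add_sub_cancel_left, one_smul] at avgle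
  have bound : ∀ u : ℝ → ℂ, Integrable (fun t => ‖u t‖ ^ 2) →
      IntervalIntegrable (fun t => ‖u t‖) volume x (x + 1) →
      ∫ t in x..x + 1, ‖u t‖ ≤ 1 + ∫ t, ‖u t‖ ^ 2 := by
    intro u hu hui
    have h2 : IntervalIntegrable (fun t => ‖u t‖ ^ 2) volume x (x + 1) := hu.intervalIntegrable
    have s1 : ∫ t in x..x + 1, ‖u t‖ ≤ ∫ t in x..x + 1, (1 + ‖u t‖ ^ 2) :=
      intervalIntegral.integral_mono_on hx hui (intervalIntegrable_const.add h2)
        fun t _ => by nlinarith [sq_nonneg (‖u t‖ - 1), sq_nonneg ‖u t‖]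
    rw [intervalIntegral.integral_add intervalIntegrable_const h2,
      intervalIntegral.integral_const] at s1
    have s2 : ∫ t in x..x + 1, ‖u t‖ ^ 2 ≤ ∫ t, ‖u t‖ ^ 2 := by
      rw [intervalIntegral.integral_of_le hx]
      exact setIntegral_le_integral hu (Eventually.of_forall fun t => sq_nonneg _)
    simp only [add_sub_cancel_left, one_smul] at s1
    linarith
  have := bound f h.integrable_normSq hf
  have := bound g h.integrable_deriv_normSq hg
  linarith

lemma MemH1.exists_bound {f g : ℝ → ℂ} (h : MemH1 f g) : ∃ M : ℝ, ∀ x, ‖f x‖ ≤ M :=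
  ⟨_, h.norm_le⟩

lemma IsPotential.le_rpow_add_one {W : ℝ → ℝ} (hW : IsPotential W) (x : ℝ) :
    W x ≤ W x ^ (3 / 2 : ℝ) + 1 := by
  rcases le_total (W x) 1 with h | h
  · have := Real.rpow_nonneg (hW.2.1 x) (3 / 2 : ℝ); linarith
  · have := Real.self_le_rpow_of_one_le h (show (1:ℝ) ≤ 3 / 2 by norm_num)
    linarith

lemma MemH1.integrable_potential_mul {f g φ ψ : ℝ → ℂ} {W : ℝ → ℝ} (hW : IsPotential W)
    (h : MemH1 φ f) (h' : MemH1 ψ g) :
    Integrable (fun x => (W x : ℂ) * (starRingEnd ℂ (φ x) * ψ x)) := by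
  obtain ⟨A, hA⟩ := h.exists_bound
  obtain ⟨B, hB⟩ := h'.exists_bound
  have hdom : Integrable (fun x => A ^ 2 * W x ^ (3 / 2 : ℝ) + ‖φ x‖ ^ 2 +
      (B ^ 2 * W x ^ (3 / 2 : ℝ) + ‖ψ x‖ ^ 2)) :=
    ((hW.2.2.const_mul _).add h.integrable_normSq).add
      ((hW.2.2.const_mul _).add h'.integrable_normSq)
  refine hdom.mono' ?_ (Eventually.of_forall fun x => ?_)
  · exact ((Complex.continuous_ofReal.measurable.comp hW.1).mul
      ((Complex.continuous_conj.comp h.continuous).mul h'.continuous).measurable).aestronglyMeasurable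
  · rw [norm_mul, norm_mul, Complex.norm_real, RCLike.norm_conj, Real.norm_eq_abs,
      abs_of_nonneg (hW.2.1 x)]
    have w0 := hW.2.1 x
    have wb := hW.le_rpow_add_one x
    have r0 := Real.rpow_nonneg w0 (3 / 2 : ℝ)
    have a2 : ‖φ x‖ ^ 2 ≤ A ^ 2 := pow_le_pow_left₀ (norm_nonneg _) (hA x) 2
    have b2 : ‖ψ x‖ ^ 2 ≤ B ^ 2 := pow_le_pow_left₀ (norm_nonneg _) (hB x) 2
    have t1 : W x * (‖φ x‖ * ‖ψ x‖) ≤ W x * (‖φ x‖ ^ 2 + ‖ψ x‖ ^ 2) := by
      apply mul_le_mul_of_nonneg_left _ w0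
      nlinarith [sq_nonneg (‖φ x‖ - ‖ψ x‖), sq_nonneg ‖φ x‖, sq_nonneg ‖ψ x‖]
    have t2 : ∀ s : ℝ, 0 ≤ s → W x * s ≤ s * W x ^ (3 / 2 : ℝ) + s := fun s hs => by nlinarith
    have u1 := t2 _ (sq_nonneg ‖φ x‖)
    have u2 := t2 _ (sq_nonneg ‖ψ x‖)
    have v1 := mul_le_mul_of_nonneg_right a2 r0
    have v2 := mul_le_mul_of_nonneg_right b2 r0
    nlinarith

/-- An integrable nonnegative function is small along sequences to both infinities. -/
lemma exists_seq_small {F : ℝ → ℝ} (hF : Integrable F) (h0 : ∀ x, 0 ≤ F x) :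
    ∃ a b : ℕ → ℝ, Tendsto a atTop atBot ∧ Tendsto b atTop atTop ∧
      Tendsto (fun n => F (a n)) atTop (nhds 0) ∧ Tendsto (fun n => F (b n)) atTop (nhds 0) := by
  have key : ∀ (s : Set ℝ), volume s = ⊤ → MeasurableSet s → ∀ n : ℕ,
      ∃ x ∈ s, F x < 1 / ((n : ℝ) + 1) := by
    intro s hs hm n
    by_contra hc
    push Not at hc
    set c : ℝ := 1 / ((n : ℝ) + 1)
    have hcpos : 0 < c := by positivity
    have hconst : IntegrableOn (fun _ : ℝ => c) s volume :=
      hF.integrableOn.mono' aestronglyMeasurable_const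
        (ae_restrict_of_forall_mem hm fun x hx => by
          rw [Real.norm_eq_abs, abs_of_pos hcpos]; exact hc x hx)
    rcases (integrableOn_const_iff (by simp)).1 hconst with h | h
    · exact hcpos.ne' (by simpa using h)
    · exact absurd hs h.ne
  choose a ha ha' using fun n : ℕ => key (Iic (-(n : ℝ))) Real.volume_Iic measurableSet_Iic n
  choose b hb hb' using fun n : ℕ => key (Ici (n : ℝ)) Real.volume_Ici measurableSet_Ici n
  refine ⟨a, b, ?_, ?_, ?_, ?_⟩
  · exact tendsto_atBot_mono ha (tendsto_neg_atBot_iff.2 tendsto_natCast_atTop_atTop)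
  · exact tendsto_atTop_mono hb tendsto_natCast_atTop_atTop
  · exact squeeze_zero (fun n => h0 _) (fun n => (ha' n).le) tendsto_one_div_add_atTop_nhds_zero_nat
  · exact squeeze_zero (fun n => h0 _) (fun n => (hb' n).le) tendsto_one_div_add_atTop_nhds_zero_nat

end Vale.Agent.P371
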