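import Vale.Agent.P371.Basic

/-!
# P371: the pointwise inequality for the calibration
-/

namespace Vale.Agent.P371

open scoped InnerProductSpace ComplexConjugate
open Finset

variable {N : ℕ} {ε : ℝ}

lemma sylv_apply (G X : Op N) (k : ℝ) :
    sylv G k X = (1 / 2 : ℂ) • (G * X + X * G) + (k : ℂ) • X := rfl

lemma InDom.exists_eigen {G : Op N} (hG : InDom ε G) :
    ∃ (b : OrthonormalBasis (Fin N) ℂ (Vec N)) (g : Fin N → ℝ),
      (∀ a, G (b a) = (g a : ℂ) • b a) ∧ ∀ a, g a ∈ Set.Icc ε (1 - ε) := by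
  have hs : ((G : Vec N →ₗ[ℂ] Vec N)).IsSymmetric := hG.1
  refine ⟨hs.eigenvectorBasis finrank_euclideanSpace_fin,
    hs.eigenvalues finrank_euclideanSpace_fin,
    fun a => hs.apply_eigenvectorBasis finrank_euclideanSpace_fin a, fun a => ?_⟩
  have h := hG.2 (hs.eigenvectorBasis finrank_euclideanSpace_fin a)
  have e : G (hs.eigenvectorBasis finrank_euclideanSpace_fin a)
      = (hs.eigenvalues finrank_euclideanSpace_fin a : ℂ) •
        hs.eigenvectorBasis finrank_euclideanSpace_fin a :=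
    hs.apply_eigenvectorBasis finrank_euclideanSpace_fin a
  rw [e, inner_smul_right, inner_self_eq_norm_sq_to_K, OrthonormalBasis.norm_eq_one] at h
  simpa using h

lemma shift_bound (_hε : 0 < ε) {x : ℝ} (hx : x ∈ Set.Icc ε (1 - ε)) (k : ℤ) :
    ε ≤ |x + (k : ℝ)| := by
  rcases le_or_gt 0 k with h | h
  · have h' : (0 : ℝ) ≤ k := by exact_mod_cast h
    exact le_trans (by linarith [hx.1]) (le_abs_self _)
  · have h' : (k : ℝ) ≤ -1 := by exact_mod_cast (show k ≤ -1 by omega)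
    exact le_trans (by linarith [hx.2]) (neg_le_abs _)

section coords

variable {G : Op N} {b : OrthonormalBasis (Fin N) ℂ (Vec N)} {g : Fin N → ℝ}

lemma apply_coord (M : Op N) (w : Vec N) (a : Fin N) :
    ⟪b a, M w⟫_ℂ = ∑ c, ⟪b a, M (b c)⟫_ℂ * ⟪b c, w⟫_ℂ := by
  conv_lhs => rw [← b.sum_repr' w, map_sum, inner_sum]
  exact sum_congr rfl fun c _ => by rw [map_smul, inner_smul_right, mul_comm]

lemma rk_coord (u : Vec N) (a c : Fin N) :
    ⟪b a, rk u (b c)⟫_ℂ = ⟪b a, u⟫_ℂ * conj ⟪b c, u⟫_ℂ := by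
  rw [rk, InnerProductSpace.rankOne_apply, inner_smul_right, inner_conj_symm, mul_comm]

lemma sylv_coord (hs : InDom ε G) (hb : ∀ a, G (b a) = (g a : ℂ) • b a) (X : Op N) (k : ℝ)
    (a c : Fin N) :
    ⟪b a, sylv G k X (b c)⟫_ℂ = (((g a + g c) / 2 + k : ℝ) : ℂ) * ⟪b a, X (b c)⟫_ℂ := by
  rw [sylv_apply]
  simp only [add_apply, smul_apply, inner_add_right, inner_smul_right]
  rw [show (G * X) (b c) = G (X (b c)) from rfl, show (X * G) (b c) = X (G (b c)) from rfl,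
    ← hs.1, hb, hb, map_smul, inner_smul_left, inner_smul_right, Complex.conj_ofReal]
  push_cast
  ring

lemma isUnit_sylv (hε : 0 < ε) (hs : InDom ε G) (k : ℤ) : IsUnit (sylv G (k : ℝ)) := by
  obtain ⟨b, g, hb, hg⟩ := hs.exists_eigen
  rw [ContinuousLinearMap.isUnit_iff_isUnit_toLinearMap, LinearMap.isUnit_iff_ker_eq_bot,
    LinearMap.ker_eq_bot']
  intro X hX
  have hX' : sylv G (k : ℝ) X = 0 := hX
  refine ContinuousLinearMap.coe_injective (b.toBasis.ext fun c => ?_)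
  show X (b.toBasis c) = (0 : Op N) (b.toBasis c)
  rw [OrthonormalBasis.coe_toBasis, ← b.sum_repr' (X (b c))]
  refine sum_eq_zero fun a _ => ?_
  have h := sylv_coord hs hb X (k : ℝ) a c
  rw [hX', zero_apply, inner_zero_right, eq_comm, mul_eq_zero] at h
  have hne : (g a + g c) / 2 + (k : ℝ) ≠ 0 := fun h0 => by
    have := shift_bound hε (x := (g a + g c) / 2)
      ⟨by linarith [(hg a).1, (hg c).1], by linarith [(hg a).2, (hg c).2]⟩ k
    rw [h0, abs_zero] at this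
    linarith
  rw [h.resolve_left (by exact_mod_cast hne), zero_smul]

end coords

/-- `sylv(G,k)⁻¹ (u u*)`. -/
noncomputable def sol (k : ℤ) (u : Vec N) (G : Op N) : Op N :=
  Ring.inverse (sylv G (k : ℝ)) (rk u)

lemma sylv_sol (hε : 0 < ε) (u : Vec N) {G : Op N} (hG : InDom ε G) (k : ℤ) :
    sylv G (k : ℝ) (sol k u G) = rk u := by
  show (sylv G (k : ℝ) * Ring.inverse (sylv G (k : ℝ))) (rk u) = rk u
  rw [Ring.mul_inverse_cancel _ (isUnit_sylv hε hG k)]
  rfl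

/-- The eigenbasis data at a point. -/
structure Frame (ε : ℝ) (u : Vec N) (G : Op N) where
  b : OrthonormalBasis (Fin N) ℂ (Vec N)
  g : Fin N → ℝ
  hb : ∀ a, G (b a) = (g a : ℂ) • b a
  hg : ∀ a, g a ∈ Set.Icc ε (1 - ε)
  hs : InDom ε G

namespace Frame

variable {u : Vec N} {G : Op N} (F : Frame ε u G)

noncomputable def v (a : Fin N) : ℂ := ⟪F.b a, u⟫_ℂ

noncomputable def p (a : Fin N) : ℝ := ‖F.v a‖ ^ 2

noncomputable def x (a c : Fin N) : ℝ := (F.g a + F.g c) / 2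

noncomputable def f (k : ℤ) (a c : Fin N) : ℝ := 1 / (F.x a c + k)

noncomputable def S (k : ℤ) (a : Fin N) : ℝ := ∑ c, F.f k a c * F.p c

lemma x_mem (a c : Fin N) : F.x a c ∈ Set.Icc ε (1 - ε) :=
  ⟨by unfold Frame.x; linarith [(F.hg a).1, (F.hg c).1],
    by unfold Frame.x; linarith [(F.hg a).2, (F.hg c).2]⟩

lemma f_comm (k : ℤ) (a c : Fin N) : F.f k a c = F.f k c a := by
  simp [Frame.f, Frame.x, add_comm]

lemma p_eq (a : Fin N) : (F.p a : ℂ) = F.v a * conj (F.v a) := by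
  rw [Complex.mul_conj, Frame.p, Complex.normSq_eq_norm_sq]

lemma sum_p : ∑ a, F.p a = ‖u‖ ^ 2 := F.b.sum_sq_norm_inner_right u

lemma coord_of_sylv (hε : 0 < ε) (k : ℤ) (Y : Op N) (a c : Fin N) :
    ⟪F.b a, Y (F.b c)⟫_ℂ = (F.f k a c : ℂ) * ⟪F.b a, sylv G (k : ℝ) Y (F.b c)⟫_ℂ := by
  have hne : F.x a c + (k : ℝ) ≠ 0 := fun h => by
    have := shift_bound hε (F.x_mem a c) k
    rw [h, abs_zero] at this
    linarith
  rw [sylv_coord F.hs F.hb, ← mul_assoc, ← Complex.ofReal_mul]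
  show _ = ((1 / (F.x a c + (k : ℝ)) * (F.x a c + k) : ℝ) : ℂ) * _
  rw [one_div_mul_cancel hne, Complex.ofReal_one, one_mul]

lemma sol_coord (hε : 0 < ε) (k : ℤ) (a c : Fin N) :
    ⟪F.b a, sol k u G (F.b c)⟫_ℂ = (F.f k a c : ℂ) * (F.v a * conj (F.v c)) := by
  rw [F.coord_of_sylv hε k, sylv_sol hε u F.hs k, rk_coord]
  rfl

lemma sol_apply_coord (hε : 0 < ε) (k : ℤ) (a : Fin N) :
    ⟪F.b a, sol k u G u⟫_ℂ = F.v a * F.S k a := by
  rw [apply_coord, Frame.S, Complex.ofReal_sum, mul_sum]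
  refine sum_congr rfl fun c _ => ?_
  rw [F.sol_coord hε k, Complex.ofReal_mul, p_eq]
  simp only [Frame.v]
  ring

lemma inner_eq (y : Vec N) (z : Vec N) :
    ⟪y, z⟫_ℂ = ∑ a, conj ⟪F.b a, y⟫_ℂ * ⟪F.b a, z⟫_ℂ := by
  rw [← F.b.sum_inner_mul_inner y z]
  simp only [inner_conj_symm]

lemma quad (hε : 0 < ε) (k : ℤ) :
    ⟪u, sol k u G u⟫_ℂ = ((∑ a, F.p a * F.S k a : ℝ) : ℂ) := by
  rw [F.inner_eq, Complex.ofReal_sum]
  refine sum_congr rfl fun a _ => ?_
  rw [F.sol_apply_coord hε, Complex.ofReal_mul, p_eq]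
  simp only [Frame.v]
  ring

include F in
lemma abs_quad_le (hε : 0 < ε) (k : ℤ) :
    |(⟪u, sol k u G u⟫_ℂ).re| ≤ 1 / ε * ‖u‖ ^ 4 := by
  rw [F.quad hε, Complex.ofReal_re]
  have hf : ∀ a c, |F.f k a c| ≤ 1 / ε := fun a c => by
    rw [Frame.f, abs_div, abs_one]
    exact one_div_le_one_div_of_le hε (shift_bound hε (F.x_mem a c) k)
  have hp : ∀ a, 0 ≤ F.p a := fun a => sq_nonneg _
  calc |∑ a, F.p a * F.S k a| ≤ ∑ a, |F.p a * F.S k a| := abs_sum_le_sum_abs _ _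
    _ ≤ ∑ a, F.p a * (1 / ε * ∑ c, F.p c) := by
        refine sum_le_sum fun a _ => ?_
        rw [abs_mul, abs_of_nonneg (hp a), mul_sum]
        refine mul_le_mul_of_nonneg_left ((abs_sum_le_sum_abs _ _).trans ?_) (hp a)
        refine sum_le_sum fun c _ => ?_
        rw [abs_mul, abs_of_nonneg (hp c)]
        exact mul_le_mul_of_nonneg_right (hf a c) (hp c)
    _ = 1 / ε * ‖u‖ ^ 4 := by rw [← sum_mul, F.sum_p]; ring

end Frame

lemma InDom.frame {G : Op N} (hG : InDom ε G) (u : Vec N) : Nonempty (Frame ε u G) := by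
  obtain ⟨b, g, hb, hg⟩ := hG.exists_eigen
  exact ⟨⟨b, g, hb, hg, hG⟩⟩

lemma isBoundedBilinearMap_rankOne (N : ℕ) :
    IsBoundedBilinearMap ℝ fun p : Vec N × Vec N => InnerProductSpace.rankOne ℂ p.1 p.2 where
  add_left x₁ x₂ y := by ext z; simp
  smul_left c x y := by ext z; simp [smul_comm c]
  add_right x y₁ y₂ := by ext z; simp
  smul_right c x y := by
    ext z
    simp [← Complex.coe_smul]
  bound := ⟨1, one_pos, fun x y => by simp⟩

lemma contDiff_rk (N : ℕ) : ContDiff ℝ 1 fun u : Vec N => rk u := by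
  have h := ((isBoundedBilinearMap_rankOne N).contDiff (n := 1)).comp
    ((contDiff_id (𝕜 := ℝ) (E := Vec N)).prodMk contDiff_id)
  exact h

lemma contDiff_apply_op {E F : Type*} [NormedAddCommGroup E] [NormedSpace ℂ E]
    [NormedAddCommGroup F] [NormedSpace ℂ F] :
    ContDiff ℝ 1 fun p : (E →L[ℂ] F) × E => p.1 p.2 :=
  (isBoundedBilinearMap_apply (𝕜 := ℂ) (E := E) (F := F)).contDiff.restrict_scalars ℝ

lemma hasDerivAt_apply_op {E F : Type*} [NormedAddCommGroup E] [NormedSpace ℂ E]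
    [NormedAddCommGroup F] [NormedSpace ℂ F] {A : ℝ → E →L[ℂ] F} {A' : E →L[ℂ] F} {x : ℝ → E}
    {x' : E} {t : ℝ} (hA : HasDerivAt A A' t) (hx : HasDerivAt x x' t) :
    HasDerivAt (fun s => A s (x s)) (A' (x t) + A t x') t :=
  ((ContinuousLinearMap.restrictScalarsL ℂ E F ℝ ℝ).hasFDerivAt.comp_hasDerivAt t hA).clm_apply hx

lemma contDiffAt_inv {E : Type*} [NormedAddCommGroup E] [NormedSpace ℂ E] [CompleteSpace E]
    {A : E →L[ℂ] E} (hA : IsUnit A) : ContDiffAt ℂ 1 Ring.inverse A := by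
  obtain ⟨w, rfl⟩ := hA
  exact contDiffAt_ringInverse (R := E →L[ℂ] E) ℂ w

lemma isUnit_mem_nhds {E : Type*} [NormedAddCommGroup E] [NormedSpace ℂ E] [CompleteSpace E]
    {A : E →L[ℂ] E} (hA : IsUnit A) : {B : E →L[ℂ] E | IsUnit B} ∈ nhds A :=
  (Units.isOpen (R := E →L[ℂ] E)).mem_nhds hA

lemma contDiff_sylv (k : ℝ) : ContDiff ℂ 1 fun G : Op N => sylv G k := by
  unfold sylv
  fun_prop

lemma contDiffAt_sol (hε : 0 < ε) (u : Vec N) {G : Op N} (hG : InDom ε G) (k : ℤ) :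
    ContDiffAt ℝ 1 (fun p : Vec N × Op N => sol k p.1 p.2) (u, G) := by
  have h1 : ContDiffAt ℂ 1 (fun H : Op N => Ring.inverse (sylv H (k : ℝ))) G :=
    ContDiffAt.comp (g := Ring.inverse) G (contDiffAt_inv (E := Op N) (isUnit_sylv hε hG k))
      (contDiff_sylv (k : ℝ)).contDiffAt
  have h2 : ContDiffAt ℝ 1 (fun p : Vec N × Op N => Ring.inverse (sylv p.2 (k : ℝ))) (u, G) :=
    (h1.restrict_scalars ℝ).comp (u, G) contDiffAt_snd
  have h3 : ContDiff ℝ 1 fun p : Vec N × Op N => rk p.1 :=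
    ContDiff.comp (g := fun v : Vec N => rk v) (f := fun p : Vec N × Op N => p.1)
      (contDiff_rk N) contDiff_fst
  have h4 := (h2.prodMk h3.contDiffAt)
  exact ContDiffAt.comp (g := fun p : (Op N →L[ℂ] Op N) × Op N => p.1 p.2)
    (f := fun p : Vec N × Op N => (Ring.inverse (sylv p.2 (k : ℝ)), rk p.1)) (u, G)
    (contDiff_apply_op (E := Op N) (F := Op N)).contDiffAt h4

lemma calib_eq (K : ℕ) (u : Vec N) (G : Op N) :
    calib K u G = (1 / 4) * ∑ k ∈ Icc (-(K : ℤ)) K, (⟪u, sol k u G u⟫_ℂ).re := rfl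

lemma contDiffAt_calib {N K : ℕ} {ε : ℝ} (hε : 0 < ε) (u : Vec N) {G : Op N} (hG : InDom ε G) :
    ContDiffAt ℝ 1 (fun p : Vec N × Op N => calib K p.1 p.2) (u, G) := by
  simp only [calib_eq]
  refine contDiffAt_const.mul (ContDiffAt.sum fun k _ => ?_)
  refine Complex.reCLM.contDiff.contDiffAt.comp _ (contDiffAt_fst.inner ℂ ?_)
  exact contDiff_apply_op.contDiffAt.comp (u, G) ((contDiffAt_sol hε u hG k).prodMk contDiffAt_fst)

lemma exists_calib_bound (N K : ℕ) {ε : ℝ} (hε : 0 < ε) :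
    ∃ C : ℝ, ∀ (u : Vec N) (G : Op N), InDom ε G → |calib K u G| ≤ C * ‖u‖ ^ 4 := by
  refine ⟨1 / 4 * ((Icc (-(K : ℤ)) K).card * (1 / ε)), fun u G hG => ?_⟩
  obtain ⟨F⟩ := hG.frame u
  rw [calib_eq, abs_mul, abs_of_pos (by norm_num : (0 : ℝ) < 1 / 4), mul_assoc]
  refine mul_le_mul_of_nonneg_left ((abs_sum_le_sum_abs _ _).trans ?_) (by norm_num)
  refine (sum_le_card_nsmul _ _ _ fun k _ => F.abs_quad_le hε k).trans_eq ?_
  rw [nsmul_eq_mul]; ring

/-- The derivative of one term of the calibration, in an eigenbasis. -/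
lemma hasDerivAt_term (hε : 0 < ε) {U : ℝ → Vec N} {G : ℝ → Op N} {dU : Vec N} {t : ℝ}
    (hU : HasDerivAt U dU t) (hG : HasDerivAt G (rk (U t)) t) (hdom : InDom ε (G t))
    (F : Frame ε (U t) (G t)) (k : ℤ) :
    HasDerivAt (fun s => (⟪U s, sol k (U s) (G s) (U s)⟫_ℂ).re)
      (4 * (∑ a, F.S k a * (conj (F.v a) * ⟪F.b a, dU⟫_ℂ).re)
        - ∑ a, ∑ b, ∑ c, F.p a * F.p b * F.p c * (F.f k a b * F.f k b c)) t := by
  classical
  have hX : HasDerivAt (fun s => sol k (U s) (G s))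
      (deriv (fun s => sol k (U s) (G s)) t) t :=
    (DifferentiableAt.comp (g := fun p : Vec N × Op N => sol k p.1 p.2)
      (f := fun s => (U s, G s)) t ((contDiffAt_sol hε (U t) hdom k).differentiableAt (by simp))
      (hU.differentiableAt.prodMk hG.differentiableAt)).hasDerivAt
  set X' := deriv (fun s => sol k (U s) (G s)) t
  have hR : HasDerivAt (fun s => rk (U s)) (InnerProductSpace.rankOne ℂ (U t) dU
      + InnerProductSpace.rankOne ℂ dU (U t)) t := by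
    have h := ((isBoundedBilinearMap_rankOne N).hasFDerivAt (U t, U t)).comp_hasDerivAt t
      (hU.prodMk hU)
    simpa [IsBoundedBilinearMap.deriv_apply] using! h
  have hev : ∀ᶠ s in nhds t, sylv (G s) (k : ℝ) (sol k (U s) (G s)) = rk (U s) := by
    have hc : ContinuousAt (fun s => sylv (G s) (k : ℝ)) t :=
      ((contDiff_sylv (k : ℝ)).continuous.continuousAt).comp hG.continuousAt
    filter_upwards [hc.preimage_mem_nhds (isUnit_mem_nhds (E := Op N) (isUnit_sylv hε hdom k))]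
      with s hs
    show (sylv (G s) (k : ℝ) * Ring.inverse (sylv (G s) (k : ℝ))) (rk (U s)) = rk (U s)
    rw [Ring.mul_inverse_cancel _ hs]
    rfl
  set X := sol k (U t) (G t) with hXdef
  have hid : (1 / 2 : ℂ) • (rk (U t) * X + X * rk (U t)) + sylv (G t) (k : ℝ) X'
      = InnerProductSpace.rankOne ℂ (U t) dU + InnerProductSpace.rankOne ℂ dU (U t) := by
    have h := ((hG.mul hX).add (hX.mul hG)).const_smul (1 / 2 : ℂ) |>.add
      (hX.const_smul (k : ℂ))
    have h' : HasDerivAt (fun s => rk (U s)) ((1 / 2 : ℂ) • (rk (U t) * X + G t * X' +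
        (X' * G t + X * rk (U t))) + (k : ℂ) • X') t := by
      refine h.congr_of_eventuallyEq ?_
      filter_upwards [hev] with s hs
      rw [← hs, sylv_apply]
      simp
    rw [← h'.unique hR, sylv_apply]
    simp only [smul_add, Complex.ofReal_intCast]
    abel
  have happ : HasDerivAt (fun s => sol k (U s) (G s) (U s)) (X' (U t) + X dU) t :=
    hasDerivAt_apply_op hX hU
  have h := Complex.reCLM.hasFDerivAt.comp_hasDerivAt t (hU.inner ℂ happ)
  refine h.congr_deriv ?_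
  clear h happ hev
  set v := F.v with hv
  set w : Fin N → ℂ := fun a => ⟪F.b a, dU⟫_ℂ with hw
  have hXc : ∀ a c, ⟪F.b a, X (F.b c)⟫_ℂ = (F.f k a c : ℂ) * (v a * conj (v c)) :=
    fun a c => F.sol_coord hε k a c
  have hX'c : ∀ a c, ⟪F.b a, X' (F.b c)⟫_ℂ = (F.f k a c : ℂ) *
      (v a * conj (w c) + w a * conj (v c) - 1 / 2 * (v a * conj (v c)) *
        ((F.S k c : ℂ) + F.S k a)) := by
    intro a c
    rw [F.coord_of_sylv hε k, eq_sub_of_add_eq' hid]
    congr 1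
    simp only [sub_apply, add_apply,
      smul_apply, inner_sub_right,
      inner_add_right, inner_smul_right, InnerProductSpace.rankOne_apply]
    rw [show (rk (U t) * X) (F.b c) = rk (U t) (X (F.b c)) from rfl,
      show (X * rk (U t)) (F.b c) = X (rk (U t) (F.b c)) from rfl,
      apply_coord (b := F.b) (rk (U t)) (X (F.b c)), apply_coord (b := F.b) X (rk (U t) (F.b c))]
    simp only [rk_coord, hXc, hv, hw, Frame.v, Frame.S, Complex.ofReal_sum, Complex.ofReal_mul,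
      F.p_eq, inner_conj_symm, mul_sum, ← sum_add_distrib]
    have e : ∀ a c : Fin N, F.f k c a = F.f k a c := fun a c => F.f_comm k c a
    rw [mul_comm ⟪dU, F.b c⟫_ℂ, mul_comm ⟪U t, F.b c⟫_ℂ ⟪F.b a, dU⟫_ℂ]
    congr 1
    refine sum_congr rfl fun i _ => ?_
    rw [e c i]
    ring
  have hXu : ⟪dU, X (U t)⟫_ℂ = ∑ a, conj (w a) * (v a * F.S k a) := by
    rw [F.inner_eq]
    exact sum_congr rfl fun a _ => by rw [hXdef, F.sol_apply_coord hε]
  have hXd : ⟪U t, X dU⟫_ℂ = ∑ a, (F.S k a : ℂ) * (conj (v a) * w a) := by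
    rw [F.inner_eq]
    simp only [apply_coord (b := F.b) X dU, mul_sum, hXc, Frame.S, Complex.ofReal_sum,
      Complex.ofReal_mul, F.p_eq, sum_mul]
    rw [sum_comm]
    refine sum_congr rfl fun a _ => sum_congr rfl fun c _ => ?_
    rw [F.f_comm k c a]
    simp only [hv, hw, Frame.v]
    ring
  have hX'u : ⟪U t, X' (U t)⟫_ℂ = (∑ a, (F.S k a : ℂ) * (conj (v a) * w a + v a * conj (w a)))
      - ∑ a, ∑ b, ∑ c, ((F.p a * F.p b * F.p c * (F.f k a b * F.f k b c) : ℝ) : ℂ) := by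
    rw [F.inner_eq]
    simp only [apply_coord (b := F.b) X' (U t), hX'c, mul_sum]
    have t1 : ∀ a c, conj (v a) * ((F.f k a c : ℂ) * (v a * conj (w c) + w a * conj (v c) -
        1 / 2 * (v a * conj (v c)) * ((F.S k c : ℂ) + F.S k a)) * v c) =
        (F.f k a c : ℂ) * F.p a * (v c * conj (w c)) + (F.f k a c : ℂ) * F.p c * (conj (v a) * w a)
        - 1 / 2 * ((F.f k a c : ℂ) * F.p a * F.p c * F.S k c)
        - 1 / 2 * ((F.f k a c : ℂ) * F.p a * F.p c * F.S k a) := fun a c => by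
      rw [F.p_eq, F.p_eq]
      simp only [hv]
      ring
    show (∑ a, ∑ c, conj (v a) * (_ * v c)) = _
    simp only [t1, sum_sub_distrib, sum_add_distrib]
    have q1 : ∑ a, ∑ c, (F.f k a c : ℂ) * F.p a * (v c * conj (w c))
        = ∑ a, (F.S k a : ℂ) * (v a * conj (w a)) := by
      rw [sum_comm]
      refine sum_congr rfl fun a _ => ?_
      simp only [Frame.S, Complex.ofReal_sum, Complex.ofReal_mul, sum_mul]
      exact sum_congr rfl fun c _ => by rw [F.f_comm k c a]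
    have q2 : ∑ a, ∑ c, (F.f k a c : ℂ) * F.p c * (conj (v a) * w a)
        = ∑ a, (F.S k a : ℂ) * (conj (v a) * w a) := by
      simp only [Frame.S, Complex.ofReal_sum, Complex.ofReal_mul, sum_mul]
    have q3 : ∑ a, ∑ c, 1 / 2 * ((F.f k a c : ℂ) * F.p a * F.p c * F.S k c) = 1 / 2 *
        ∑ a, ∑ b, ∑ c, ((F.p a * F.p b * F.p c * (F.f k a b * F.f k b c) : ℝ) : ℂ) := by
      simp only [Frame.S, Complex.ofReal_sum, Complex.ofReal_mul, mul_sum]
      refine sum_congr rfl fun a _ => sum_congr rfl fun b _ => sum_congr rfl fun c _ => ?_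
      ring
    have q4 : ∑ a, ∑ c, 1 / 2 * ((F.f k a c : ℂ) * F.p a * F.p c * F.S k a) = 1 / 2 *
        ∑ a, ∑ b, ∑ c, ((F.p a * F.p b * F.p c * (F.f k a b * F.f k b c) : ℝ) : ℂ) := by
      rw [sum_comm]
      simp only [Frame.S, Complex.ofReal_sum, Complex.ofReal_mul, mul_sum]
      refine sum_congr rfl fun a _ => sum_congr rfl fun b _ => sum_congr rfl fun c _ => ?_
      rw [F.f_comm k b a]
      ring
    rw [q1, q2, q3, q4]
    simp only [mul_add, sum_add_distrib]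
    ring
  simp only [Complex.reCLM_apply]
  rw [inner_add_right, hXu, hXd, hX'u]
  simp only [Complex.add_re, Complex.sub_re, Complex.re_sum, Complex.re_ofReal_mul,
    Complex.ofReal_re]
  have r1 : ∀ a, (conj (w a) * (v a * (F.S k a : ℂ))).re
      = F.S k a * (conj (v a) * w a).re := fun a => by
    simp [Complex.mul_re]
    ring
  have r3 : ∀ a, (v a * conj (w a)).re = (conj (v a) * w a).re := fun a => by
    simp [Complex.mul_re]
  simp only [r1, r3, mul_add, sum_add_distrib]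
  show _ = 4 * (∑ a, F.S k a * (conj (v a) * w a).re) - _
  ring

/-- Along `G' = U U*` the calibration grows at most like the kinetic density minus the potential
term. -/
theorem calib_deriv_le {N K : ℕ} {ε η : ℝ} (hε : 0 < ε) (hK : PairBound K ε η)
    {U : ℝ → Vec N} {G : ℝ → Op N} {dU : Vec N} {t : ℝ} (hU : HasDerivAt U dU t)
    (hG : HasDerivAt G (rk (U t)) t) (hdom : InDom ε (G t)) :
    ∃ d : ℝ, HasDerivAt (fun s => calib K (U s) (G s)) d t ∧
      d ≤ ‖dU‖ ^ 2 - (Real.pi ^ 2 - η) / 4 * ‖U t‖ ^ 6 := by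
  obtain ⟨F⟩ := hdom.frame (U t)
  refine ⟨_, (HasDerivAt.fun_sum fun k _ => hasDerivAt_term hε hU hG hdom F k).const_mul (1 / 4), ?_⟩
  set I := Icc (-(K : ℤ)) K
  let C : Fin N → ℝ := fun a => ∑ k ∈ I, F.S k a
  let r : Fin N → ℝ := fun a => (conj (F.v a) * ⟪F.b a, dU⟫_ℂ).re
  have h1 : ∀ a, C a * r a ≤ ‖⟪F.b a, dU⟫_ℂ‖ ^ 2 + 1 / 4 * (F.p a * C a ^ 2) := fun a => by
    have hr : |r a| ≤ ‖F.v a‖ * ‖⟪F.b a, dU⟫_ℂ‖ :=
      (Complex.abs_re_le_norm _).trans_eq (by rw [norm_mul, RCLike.norm_conj])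
    have h2 : C a * r a ≤ |C a| * (‖F.v a‖ * ‖⟪F.b a, dU⟫_ℂ‖) :=
      (le_abs_self _).trans ((abs_mul _ _).trans_le
        (mul_le_mul_of_nonneg_left hr (abs_nonneg _)))
    have h3 := sq_nonneg (‖⟪F.b a, dU⟫_ℂ‖ - 1 / 2 * (|C a| * ‖F.v a‖))
    have h4 : |C a| ^ 2 = C a ^ 2 := sq_abs _
    simp only [Frame.p]
    nlinarith
  have h2 : ∑ a, C a * r a ≤ ‖dU‖ ^ 2 + 1 / 4 * ∑ a, F.p a * C a ^ 2 := by
    refine (sum_le_sum fun a _ => h1 a).trans_eq ?_
    rw [sum_add_distrib, ← mul_sum, F.b.sum_sq_norm_inner_right dU]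
  have h3 : ∑ a, F.p a * C a ^ 2 = ∑ a, ∑ b, ∑ c, F.p a * F.p b * F.p c *
      ((∑ k ∈ I, F.f k a b) * ∑ k ∈ I, F.f k b c) := by
    rw [sum_comm]
    refine sum_congr rfl fun b _ => ?_
    have hC : C b = ∑ c, (∑ k ∈ I, F.f k b c) * F.p c := by
      simp only [C, Frame.S, sum_mul]
      exact sum_comm
    rw [sq, hC, sum_mul_sum, mul_sum]
    refine sum_congr rfl fun a _ => ?_
    rw [mul_sum]
    refine sum_congr rfl fun c _ => ?_
    rw [sum_congr rfl fun k _ => F.f_comm k a b]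
    ring
  have h4 : ∑ a, ∑ b, ∑ c, F.p a * F.p b * F.p c * (((∑ k ∈ I, F.f k a b) *
        ∑ k ∈ I, F.f k b c) - ∑ k ∈ I, F.f k a b * F.f k b c) ≤
      (η - Real.pi ^ 2) * ‖U t‖ ^ 6 := by
    calc _ ≤ ∑ a, ∑ b, ∑ c, F.p a * F.p b * F.p c * (η - Real.pi ^ 2) := by
          refine sum_le_sum fun a _ => sum_le_sum fun b _ => sum_le_sum fun c _ => ?_
          refine mul_le_mul_of_nonneg_left ?_ (mul_nonneg (mul_nonneg (sq_nonneg _) (sq_nonneg _))
            (sq_nonneg _))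
          have := hK (F.x a b) (F.x b c) (F.x_mem a b) (F.x_mem b c)
          simp only [Frame.f]
          linarith
      _ = (η - Real.pi ^ 2) * ((∑ a, F.p a) * (∑ b, F.p b) * ∑ c, F.p c) := by
          simp only [sum_mul, mul_sum]
          refine sum_congr rfl fun a _ => sum_congr rfl fun b _ => sum_congr rfl fun c _ => ?_
          ring
      _ = _ := by rw [F.sum_p]; ring
  have h5 : ∑ k ∈ I, ∑ a, ∑ b, ∑ c, F.p a * F.p b * F.p c * (F.f k a b * F.f k b c) =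
      ∑ a, ∑ b, ∑ c, F.p a * F.p b * F.p c * ∑ k ∈ I, F.f k a b * F.f k b c := by
    rw [sum_comm]
    refine sum_congr rfl fun a _ => ?_
    rw [sum_comm]
    refine sum_congr rfl fun b _ => ?_
    rw [sum_comm]
    exact sum_congr rfl fun c _ => (mul_sum _ _ _).symm
  have h6 : ∑ k ∈ I, ∑ a, F.S k a * r a = ∑ a, C a * r a := by
    rw [sum_comm]
    exact sum_congr rfl fun a _ => (sum_mul _ _ _).symm
  simp only [mul_sub, sum_sub_distrib] at h4
  rw [sum_sub_distrib, ← mul_sum, h5, h6]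
  linarith

end Vale.Agent.P371
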