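import Mathlib

/-!
# P371: the truncated calibration

`sylv G k` is `X ↦ (G X + X G)/2 + k X` and `calib K U G` is a quarter of the sum over
`|k| ≤ K` of `⟪U, sylv(G,k)⁻¹ (U U*) U⟫`.
-/

namespace Vale.Agent.P371

open scoped InnerProductSpace

/-- `ℂ^N` with the Euclidean norm. -/
abbrev Vec (N : ℕ) := EuclideanSpace ℂ (Fin N)

/-- Operators on `ℂ^N`. -/
abbrev Op (N : ℕ) := Vec N →L[ℂ] Vec N

/-- The rank one operator `v ↦ ⟪u, v⟫ u`. -/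
noncomputable def rk {N : ℕ} (u : Vec N) : Op N := InnerProductSpace.rankOne ℂ u u

/-- The shifted symmetrised multiplication by `G`. -/
noncomputable def sylv {N : ℕ} (G : Op N) (k : ℝ) : Op N →L[ℂ] Op N :=
  (1 / 2 : ℂ) • (ContinuousLinearMap.mul ℂ (Op N) G +
      (ContinuousLinearMap.mul ℂ (Op N)).flip G) + (k : ℂ) • ContinuousLinearMap.id ℂ (Op N)

/-- The truncated calibration. -/
noncomputable def calib {N : ℕ} (K : ℕ) (u : Vec N) (G : Op N) : ℝ :=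
  (1 / 4) * ∑ k ∈ Finset.Icc (-(K : ℤ)) K,
    (⟪u, Ring.inverse (sylv G k) (rk u) u⟫_ℂ).re

/-- `G` is symmetric with spectrum inside `[ε, 1 - ε]`. -/
def InDom {N : ℕ} (ε : ℝ) (G : Op N) : Prop :=
  (∀ v w : Vec N, ⟪G v, w⟫_ℂ = ⟪v, G w⟫_ℂ) ∧
    ∀ v : Vec N, ε * ‖v‖ ^ 2 ≤ (⟪v, G v⟫_ℂ).re ∧ (⟪v, G v⟫_ℂ).re ≤ (1 - ε) * ‖v‖ ^ 2

/-- The scalar inequality behind the calibration, for the truncation `K`. -/
def PairBound (K : ℕ) (ε η : ℝ) : Prop :=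
  ∀ x y : ℝ, x ∈ Set.Icc ε (1 - ε) → y ∈ Set.Icc ε (1 - ε) →
    (∑ k ∈ Finset.Icc (-(K : ℤ)) K, 1 / (x + k)) * (∑ k ∈ Finset.Icc (-(K : ℤ)) K, 1 / (y + k)) +
        Real.pi ^ 2 - ∑ k ∈ Finset.Icc (-(K : ℤ)) K, 1 / (x + k) * (1 / (y + k)) ≤ η

end Vale.Agent.P371
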