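import Vale.Agent.P371.Kinetic

/-!
# P371: the Lieb-Thirring bound at exponent one
-/

namespace Vale.Agent.P371

open Real MeasureTheory

lemma pointwise_young {w r : ℝ} (hw : 0 ≤ w) (hr : 0 ≤ r) :
    w * r ≤ 4 / (3 * √3 * π) * w ^ (3 / 2 : ℝ) + π ^ 2 / 4 * r ^ 3 := by
  set a : ℝ := √3 * π / 2 with ha
  have ha0 : 0 < a := by positivity
  set t : ℝ := √w with ht
  have ht0 : 0 ≤ t := sqrt_nonneg w
  have htw : t ^ 2 = w := sq_sqrt hw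
  have e1 : w ^ (3 / 2 : ℝ) = t ^ 3 := by
    rw [ht, sqrt_eq_rpow, ← rpow_natCast, ← rpow_mul hw]
    norm_num
  have e2 : 4 / (3 * √3 * π) = 2 / (3 * a) := by rw [ha]; field_simp; ring
  have e3 : π ^ 2 / 4 = a ^ 2 / 3 := by
    rw [ha, div_pow, mul_pow, sq_sqrt (by norm_num : (0:ℝ) ≤ 3)]; ring
  rw [e1, e2, e3, ← htw]
  have key : 0 ≤ (t - a * r) ^ 2 * (2 * t + a * r) := by positivity
  have : 3 * a * (t ^ 2 * r) ≤ 2 * t ^ 3 + a ^ 3 * r ^ 3 := by nlinarith [key]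
  rw [show 2 / (3 * a) * t ^ 3 + a ^ 2 / 3 * r ^ 3 = (2 * t ^ 3 + a ^ 3 * r ^ 3) / (3 * a) by
    field_simp, le_div_iff₀ (by positivity)]
  linarith

lemma neg_eigenvalue_eq {W : ℝ → ℝ} {μ : ℝ} {ψ dψ : ℝ → ℂ} (hW : IsPotential W)
    (h : MemH1 ψ dψ)
    (he : ∀ φ dφ : ℝ → ℂ, MemH1 φ dφ →
      (∫ x, starRingEnd ℂ (dφ x) * dψ x) - ∫ x, (W x : ℂ) * (starRingEnd ℂ (φ x) * ψ x) =
        (μ : ℂ) * ∫ x, starRingEnd ℂ (φ x) * ψ x)
    (hn : ∫ x, starRingEnd ℂ (ψ x) * ψ x = 1) :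
    Integrable (fun x => W x * ‖ψ x‖ ^ 2) ∧
      -μ = (∫ x, W x * ‖ψ x‖ ^ 2) - ∫ x, ‖dψ x‖ ^ 2 := by
  have cast : ∀ x, (W x : ℂ) * (starRingEnd ℂ (ψ x) * ψ x) = ((W x * ‖ψ x‖ ^ 2 : ℝ) : ℂ) := by
    intro x
    rw [Complex.conj_mul', Complex.ofReal_mul, Complex.ofReal_pow]
  have cast' : ∀ x, starRingEnd ℂ (dψ x) * dψ x = ((‖dψ x‖ ^ 2 : ℝ) : ℂ) := fun x => by
    rw [Complex.conj_mul', Complex.ofReal_pow]
  have hint := h.integrable_potential_mul hW h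
  simp only [cast] at hint
  refine ⟨by simpa [← Complex.ofReal_pow] using hint.re, ?_⟩
  have e := he ψ dψ h
  simp only [cast, cast', integral_complex_ofReal, hn, mul_one, ← Complex.ofReal_sub] at e
  linarith [Complex.ofReal_inj.1 e]

theorem ratio_le {r : ℝ} (hr : r ∈ ratios) : r ≤ 4 / (3 * √3 * π) := by
  obtain ⟨W, N, μ, ψ, hW, hpos, ⟨heig, horth⟩, rfl⟩ := hr
  choose dψ hψ heq using fun i => (heig i).2
  have hnorm : ∀ i, ∫ x, starRingEnd ℂ (ψ i x) * ψ i x = 1 := fun i => by simpa using horth i i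
  obtain ⟨hcube, hkin⟩ := kinetic_inequality ψ dψ hψ horth
  have each := fun i => neg_eigenvalue_eq hW (hψ i) (heq i) (hnorm i)
  have habs : ∑ i, |μ i| =
      (∫ x, ∑ i, W x * ‖ψ i x‖ ^ 2) - ∑ i, ∫ x, ‖dψ i x‖ ^ 2 := by
    rw [integral_finsetSum _ fun i _ => (each i).1, ← Finset.sum_sub_distrib]
    exact Finset.sum_congr rfl fun i _ => by rw [abs_of_neg (heig i).1, (each i).2]
  have hmain : (∫ x, ∑ i, W x * ‖ψ i x‖ ^ 2) ≤
      ∫ x, (4 / (3 * √3 * π) * W x ^ (3 / 2 : ℝ) + π ^ 2 / 4 * (∑ i, ‖ψ i x‖ ^ 2) ^ 3) := by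
    refine integral_mono (integrable_finsetSum _ fun i _ => (each i).1)
      ((hW.2.2.const_mul _).add (hcube.const_mul _)) fun x => ?_
    rw [← Finset.mul_sum]
    exact pointwise_young (hW.2.1 x) (Finset.sum_nonneg fun i _ => sq_nonneg _)
  rw [integral_add (hW.2.2.const_mul _) (hcube.const_mul _), integral_const_mul,
    integral_const_mul] at hmain
  rw [div_le_iff₀ hpos, habs]
  linarith

end Vale.Agent.P371
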