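import Vale.Agent.P371.PairSum
import Vale.Agent.P371.Algebra
import Vale.Agent.P371.H1

/-!
# P371: the sharp kinetic inequality for orthonormal functions
-/

namespace Vale.Agent.P371

open MeasureTheory Filter Set
open scoped InnerProductSpace Topology

lemma absolutelyContinuous_of_dist_le {F V : ℝ → ℝ} {a b : ℝ}
    (hV : AbsolutelyContinuousOnInterval V a b)
    (h : ∀ x ∈ uIcc a b, ∀ y ∈ uIcc a b, dist (F x) (F y) ≤ dist (V x) (V y)) :
    AbsolutelyContinuousOnInterval F a b := by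
  rw [absolutelyContinuousOnInterval_iff] at hV ⊢
  intro e he
  obtain ⟨d, hd, hd'⟩ := hV e he
  refine ⟨d, hd, fun E hE hlen => lt_of_le_of_lt (Finset.sum_le_sum fun i hi => ?_) (hd' E hE hlen)⟩
  exact h _ (hE.1 i hi).1 _ (hE.1 i hi).2

lemma MemH1.ae_hasDerivAt {f g : ℝ → ℂ} (h : MemH1 f g) : ∀ᵐ x, HasDerivAt f (g x) x := by
  filter_upwards [LocallyIntegrable.ae_hasDerivAt_integral h.locallyIntegrable] with x hx
  have e : f = fun y => f 0 + ∫ t in (0:ℝ)..y, g t := funext fun y => h.eq_add 0 y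
  rw [e]
  exact (hx 0).const_add _

lemma norm_rk {N : ℕ} (u : Vec N) : ‖rk u‖ = ‖u‖ ^ 2 := by
  rw [rk, InnerProductSpace.norm_rankOne, sq]

lemma inner_rk_apply {N : ℕ} (u v w : Vec N) :
    ⟪v, rk u w⟫_ℂ = ⟪v, u⟫_ℂ * ⟪u, w⟫_ℂ := by
  rw [rk, InnerProductSpace.rankOne_apply, inner_smul_right, mul_comm]

lemma continuous_rk {N : ℕ} : Continuous (fun u : Vec N => rk u) := by
  simp only [rk, InnerProductSpace.rankOne_def]
  exact ((ContinuousLinearMap.smulRightL ℂ (Vec N) (Vec N)).continuous.comp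
    (innerSL ℂ).continuous).clm_apply continuous_id

lemma convex_inDom {N : ℕ} (ε : ℝ) : Convex ℝ {G : Op N | InDom ε G} := by
  intro G hG H hH a b ha hb hab
  refine ⟨fun v w => ?_, fun v => ?_⟩
  · simp only [add_apply, smul_apply, inner_add_left,
      inner_add_right, inner_smul_left_eq_smul, inner_smul_right_eq_smul, hG.1 v w, hH.1 v w]
  · have e : (⟪v, (a • G + b • H) v⟫_ℂ).re = a * (⟪v, G v⟫_ℂ).re + b * (⟪v, H v⟫_ℂ).re := by
      simp only [add_apply, smul_apply,
        inner_add_right, inner_smul_right_eq_smul, Complex.add_re, Complex.real_smul,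
        Complex.mul_re, Complex.ofReal_re, Complex.ofReal_im]
      ring
    obtain ⟨g1, g2⟩ := hG.2 v
    obtain ⟨h1, h2⟩ := hH.2 v
    rw [e]
    constructor
    · nlinarith [mul_le_mul_of_nonneg_left g1 ha, mul_le_mul_of_nonneg_left h1 hb]
    · nlinarith [mul_le_mul_of_nonneg_left g2 ha, mul_le_mul_of_nonneg_left h2 hb]

lemma isClosed_inDom {N : ℕ} (ε : ℝ) : IsClosed {G : Op N | InDom ε G} := by
  have ev : ∀ v : Vec N, Continuous (fun G : Op N => G v) := fun v =>
    (ContinuousLinearMap.apply ℂ (Vec N) v).continuous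
  simp only [InDom, ofPred_and, ofPred_forall]
  refine (isClosed_iInter fun v => isClosed_iInter fun w => ?_).inter
    (isClosed_iInter fun v => ?_)
  · exact isClosed_eq ((ev v).inner continuous_const) (continuous_const.inner (ev w))
  · exact (isClosed_le continuous_const (Complex.continuous_re.comp
      (continuous_const.inner (ev v)))).inter (isClosed_le (Complex.continuous_re.comp
      (continuous_const.inner (ev v))) continuous_const)

lemma norm_le_of_inDom {N : ℕ} {ε : ℝ} (hε : 0 ≤ ε) {G : Op N} (hG : InDom ε G) : ‖G‖ ≤ 4 := by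
  have q : ∀ v : Vec N, |(⟪v, G v⟫_ℂ).re| ≤ ‖v‖ ^ 2 := fun v => by
    obtain ⟨h1, h2⟩ := hG.2 v
    have := sq_nonneg ‖v‖
    rw [abs_le]; constructor <;> nlinarith
  refine ContinuousLinearMap.opNorm_le_bound _ (by norm_num) fun v => ?_
  rcases eq_or_ne (G v) 0 with h0 | h0
  · rw [h0, norm_zero]; positivity
  rcases eq_or_ne v 0 with rfl | hv
  · simp at h0
  have hn : 0 < ‖G v‖ := norm_pos_iff.2 h0
  have hv' : 0 < ‖v‖ := norm_pos_iff.2 hv
  set c : ℝ := ‖v‖ / ‖G v‖ with hc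
  set w : Vec N := (c : ℂ) • G v with hw
  have hwn : ‖w‖ = ‖v‖ := by
    rw [hw, norm_smul, Complex.norm_real, Real.norm_eq_abs, abs_of_pos (by positivity), hc]
    field_simp
  have e1 : (⟪w, G v⟫_ℂ).re = ‖v‖ * ‖G v‖ := by
    rw [hw, inner_smul_left, Complex.conj_ofReal, inner_self_eq_norm_sq_to_K,
      show ((RCLike.ofReal ‖G v‖ : ℂ)) = ((‖G v‖ : ℝ) : ℂ) from rfl]
    rw [← Complex.ofReal_pow, ← Complex.ofReal_mul, Complex.ofReal_re, hc]
    field_simp
  have e2 : (⟪v, G w⟫_ℂ).re = (⟪w, G v⟫_ℂ).re := by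
    rw [← hG.1, ← inner_conj_symm, Complex.conj_re]
  have p : (⟪w + v, G (w + v)⟫_ℂ).re - (⟪w - v, G (w - v)⟫_ℂ).re = 4 * (⟪w, G v⟫_ℂ).re := by
    simp only [map_add, map_sub, inner_add_left, inner_add_right, inner_sub_left, inner_sub_right,
      Complex.add_re, Complex.sub_re]
    rw [e2]; ring
  have b1 := abs_le.1 (q (w + v))
  have b2 := abs_le.1 (q (w - v))
  have n1 : ‖w + v‖ ≤ 2 * ‖v‖ := (norm_add_le _ _).trans (by rw [hwn]; linarith)
  have n2 : ‖w - v‖ ≤ 2 * ‖v‖ := (norm_sub_le _ _).trans (by rw [hwn]; linarith)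
  have m1 := pow_le_pow_left₀ (norm_nonneg _) n1 2
  have m2 := pow_le_pow_left₀ (norm_nonneg _) n2 2
  have : ‖v‖ * ‖G v‖ ≤ 2 * ‖v‖ ^ 2 := by nlinarith [b1.2, b2.1, p, e1, m1, m2]
  have : ‖G v‖ ≤ 2 * ‖v‖ := le_of_mul_le_mul_left (by nlinarith) hv'
  linarith

lemma exists_lipschitz_calib (N K : ℕ) {ε : ℝ} (hε : 0 < ε) (M : ℝ) :
    ∃ L : NNReal, LipschitzOnWith L (fun p : Vec N × Op N => calib K p.1 p.2)
      (Metric.closedBall (0 : Vec N) M ×ˢ {G | InDom ε G}) := by
  set S := Metric.closedBall (0 : Vec N) M ×ˢ {G : Op N | InDom ε G}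
  have hcd : ContDiffOn ℝ 1 (fun p : Vec N × Op N => calib K p.1 p.2) S :=
    fun p hp => (contDiffAt_calib hε p.1 hp.2).contDiffWithinAt
  have hcomp : IsCompact S := by
    refine (isCompact_closedBall _ _).prod ?_
    refine Metric.isCompact_of_isClosed_isBounded (isClosed_inDom ε) ?_
    exact (Metric.isBounded_closedBall (x := (0 : Op N)) (r := 4)).subset
      fun G hG => mem_closedBall_zero_iff.2 (norm_le_of_inDom hε.le hG)
  exact hcd.exists_lipschitzOnWith (by decide) ((convex_closedBall _ _).prod (convex_inDom ε)) hcomp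

section main

variable {N : ℕ} {ψ dψ : Fin N → ℝ → ℂ}

/-- The scaled vector of the family. -/
noncomputable def vecOf (c : ℝ) (ψ : Fin N → ℝ → ℂ) (x : ℝ) : Vec N :=
  WithLp.toLp 2 (fun i => (c : ℂ) * ψ i x)

lemma normSq_vecOf (c : ℝ) (ψ : Fin N → ℝ → ℂ) (x : ℝ) :
    ‖vecOf c ψ x‖ ^ 2 = c ^ 2 * ∑ i, ‖ψ i x‖ ^ 2 := by
  rw [EuclideanSpace.norm_sq_eq, Finset.mul_sum]
  refine Finset.sum_congr rfl fun i _ => ?_
  simp [vecOf, mul_pow]

lemma continuous_vecOf (c : ℝ) (h : ∀ i, MemH1 (ψ i) (dψ i)) : Continuous (vecOf c ψ) :=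
  (PiLp.continuous_toLp 2 _).comp
    (continuous_pi fun i => continuous_const.mul (h i).continuous)

/-- The accumulated operator. -/
noncomputable def gram (ε c : ℝ) (ψ : Fin N → ℝ → ℂ) (x : ℝ) : Op N :=
  (ε : ℂ) • ContinuousLinearMap.id ℂ (Vec N) + ∫ t in Iic x, rk (vecOf c ψ t)

lemma integrable_rk_vecOf (c : ℝ) (h : ∀ i, MemH1 (ψ i) (dψ i)) :
    Integrable (fun t => rk (vecOf c ψ t)) := by
  have : Integrable (fun t => c ^ 2 * ∑ i, ‖ψ i t‖ ^ 2) :=
    (integrable_finsetSum _ fun i _ => (h i).integrable_normSq).const_mul _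
  refine this.mono' (continuous_rk.comp (continuous_vecOf c h)).aestronglyMeasurable
    (Eventually.of_forall fun t => ?_)
  rw [norm_rk, normSq_vecOf]

lemma hasDerivAt_gram (ε c : ℝ) (h : ∀ i, MemH1 (ψ i) (dψ i)) (x : ℝ) :
    HasDerivAt (gram ε c ψ) (rk (vecOf c ψ x)) x := by
  have hi := integrable_rk_vecOf c h
  have e : gram ε c ψ = fun y => gram ε c ψ 0 + ∫ t in (0:ℝ)..y, rk (vecOf c ψ t) := by
    funext y
    rw [← intervalIntegral.integral_Iic_sub_Iic hi.integrableOn hi.integrableOn]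
    simp only [gram]
    abel
  rw [e]
  exact (intervalIntegral.integral_hasDerivAt_right hi.intervalIntegrable
    hi.aestronglyMeasurable.stronglyMeasurableAtFilter
    (continuous_rk.comp (continuous_vecOf c h)).continuousAt).const_add _

lemma inDom_gram {ε c : ℝ} (hc : c ^ 2 = 1 - 2 * ε) (h : ∀ i, MemH1 (ψ i) (dψ i))
    (horth : ∀ i j, ∫ x, starRingEnd ℂ (ψ i x) * ψ j x = if i = j then 1 else 0) (x : ℝ) :
    InDom ε (gram ε c ψ x) := by
  have hi := integrable_rk_vecOf c h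
  have eval : ∀ v w : Vec N, ⟪v, gram ε c ψ x w⟫_ℂ =
      (ε : ℂ) * ⟪v, w⟫_ℂ + ∫ t in Iic x, ⟪v, vecOf c ψ t⟫_ℂ * ⟪vecOf c ψ t, w⟫_ℂ := by
    intro v w
    rw [gram, add_apply, inner_add_right, smul_apply,
      inner_smul_right, ContinuousLinearMap.id_apply,
      ContinuousLinearMap.integral_apply hi.integrableOn,
      ← integral_inner (hi.integrableOn.apply_continuousLinearMap w) v]
    simp only [inner_rk_apply]
  refine ⟨fun v w => ?_, fun v => ?_⟩
  · rw [← inner_conj_symm (gram ε c ψ x v) w, eval, eval, map_add, map_mul, Complex.conj_ofReal,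
      inner_conj_symm, ← integral_conj]
    congr 1
    refine integral_congr_ae (Eventually.of_forall fun t => ?_)
    simp only [map_mul, inner_conj_symm]
    ring
  · have sq : ∀ t, ⟪v, vecOf c ψ t⟫_ℂ * ⟪vecOf c ψ t, v⟫_ℂ =
        ((‖⟪vecOf c ψ t, v⟫_ℂ‖ ^ 2 : ℝ) : ℂ) := by
      intro t
      rw [← inner_conj_symm v, mul_comm, Complex.mul_conj', Complex.ofReal_pow]
    have re_eq : (⟪v, gram ε c ψ x v⟫_ℂ).re =
        ε * ‖v‖ ^ 2 + ∫ t in Iic x, ‖⟪vecOf c ψ t, v⟫_ℂ‖ ^ 2 := by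
      simp only [eval, sq]
      rw [integral_complex_ofReal, Complex.add_re, Complex.ofReal_re, inner_self_eq_norm_sq_to_K]
      norm_num [Complex.mul_re]
      simp [← Complex.ofReal_pow]
    have prod_int : ∀ i j, Integrable (fun t => starRingEnd ℂ (ψ i t) * ψ j t) := by
      intro i j
      refine ((h i).integrable_normSq.add (h j).integrable_normSq).mono'
        ((Complex.continuous_conj.comp (h i).continuous).mul
          (h j).continuous).aestronglyMeasurable (Eventually.of_forall fun t => ?_)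
      rw [norm_mul, RCLike.norm_conj, Pi.add_apply]
      nlinarith [sq_nonneg (‖ψ i t‖ - ‖ψ j t‖), sq_nonneg ‖ψ i t‖, sq_nonneg ‖ψ j t‖]
    have expand : ∀ t, ((‖⟪vecOf c ψ t, v⟫_ℂ‖ ^ 2 : ℝ) : ℂ) =
        ∑ i, ∑ j, ((c : ℂ) ^ 2 * v i * starRingEnd ℂ (v j)) *
          (starRingEnd ℂ (ψ i t) * ψ j t) := by
      intro t
      rw [Complex.ofReal_pow, ← Complex.mul_conj', PiLp.inner_apply, map_sum, Finset.sum_mul_sum]
      refine Finset.sum_congr rfl fun i _ => Finset.sum_congr rfl fun j _ => ?_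
      simp only [vecOf, RCLike.inner_apply, map_mul, Complex.conj_conj, Complex.conj_ofReal]
      ring
    have hint : Integrable (fun t => ((‖⟪vecOf c ψ t, v⟫_ℂ‖ ^ 2 : ℝ) : ℂ)) := by
      simp only [expand]
      exact integrable_finsetSum _ fun i _ =>
        integrable_finsetSum _ fun j _ => (prod_int i j).const_mul _
    have hintR : Integrable (fun t => ‖⟪vecOf c ψ t, v⟫_ℂ‖ ^ 2) := by
      have h' := hint.re
      simp only [Complex.ofReal_re, RCLike.re_to_complex] at h'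
      exact h'
    have total : ∫ t, ‖⟪vecOf c ψ t, v⟫_ℂ‖ ^ 2 = c ^ 2 * ‖v‖ ^ 2 := by
      apply Complex.ofReal_injective
      rw [← integral_complex_ofReal]
      simp only [expand]
      rw [integral_finsetSum _ fun i _ =>
        integrable_finsetSum _ fun j _ => (prod_int i j).const_mul _]
      rw [EuclideanSpace.norm_sq_eq, Finset.mul_sum, Complex.ofReal_sum]
      refine Finset.sum_congr rfl fun i _ => ?_
      rw [integral_finsetSum _ fun j _ => (prod_int i j).const_mul _]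
      simp only [integral_const_mul, horth, mul_ite, mul_one, mul_zero, Finset.sum_ite_eq,
        Finset.mem_univ, if_true]
      rw [mul_assoc, Complex.mul_conj', Complex.ofReal_mul, Complex.ofReal_pow,
        Complex.ofReal_pow]
    have lo : 0 ≤ ∫ t in Iic x, ‖⟪vecOf c ψ t, v⟫_ℂ‖ ^ 2 :=
      setIntegral_nonneg measurableSet_Iic fun t _ => sq_nonneg _
    have hiU : ∫ t in Iic x, ‖⟪vecOf c ψ t, v⟫_ℂ‖ ^ 2 ≤ c ^ 2 * ‖v‖ ^ 2 :=
      (setIntegral_le_integral hintR (Eventually.of_forall fun t => sq_nonneg _)).trans total.le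
    rw [re_eq]
    constructor
    · linarith
    · rw [hc] at hiU
      nlinarith

lemma integrable_density_cube (h : ∀ i, MemH1 (ψ i) (dψ i)) :
    Integrable (fun x => (∑ i, ‖ψ i x‖ ^ 2) ^ 3) := by
  choose M hM using fun i => (h i).exists_bound
  have hρ : Integrable (fun x => ∑ i, ‖ψ i x‖ ^ 2) :=
    integrable_finsetSum _ fun i _ => (h i).integrable_normSq
  refine (hρ.const_mul ((∑ i, M i ^ 2) ^ 2)).mono'
    ((continuous_finsetSum _ fun i _ => ((h i).continuous.norm.pow 2)).pow 3).aestronglyMeasurable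
    (Eventually.of_forall fun x => ?_)
  have h0 : 0 ≤ ∑ i, ‖ψ i x‖ ^ 2 := Finset.sum_nonneg fun i _ => sq_nonneg _
  have hle : ∑ i, ‖ψ i x‖ ^ 2 ≤ ∑ i, M i ^ 2 :=
    Finset.sum_le_sum fun i _ => pow_le_pow_left₀ (norm_nonneg _) (hM i x) 2
  rw [Real.norm_eq_abs, abs_of_nonneg (pow_nonneg h0 3), pow_succ]
  exact mul_le_mul_of_nonneg_right (pow_le_pow_left₀ h0 hle 2) h0

lemma kinetic_approx {ε η : ℝ} (hε : 0 < ε) (hε' : ε < 1 / 2) (hη : 0 < η)
    (h : ∀ i, MemH1 (ψ i) (dψ i))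
    (horth : ∀ i j, ∫ x, starRingEnd ℂ (ψ i x) * ψ j x = if i = j then 1 else 0) :
    (Real.pi ^ 2 - η) / 4 * (1 - 2 * ε) ^ 2 * (∫ x, (∑ i, ‖ψ i x‖ ^ 2) ^ 3) ≤
      ∑ i, ∫ x, ‖dψ i x‖ ^ 2 := by
  obtain ⟨K, hK⟩ := exists_pairBound hε hη
  set k : ℝ := (Real.pi ^ 2 - η) / 4
  set c : ℝ := √(1 - 2 * ε)
  have hc : c ^ 2 = 1 - 2 * ε := Real.sq_sqrt (by linarith)
  set U := vecOf c ψ with hUdef
  set G := gram ε c ψ
  set D := vecOf c dψ with hDdef
  set F : ℝ → ℝ := fun x => calib K (U x) (G x) with hFdef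
  have hUae : ∀ᵐ x, HasDerivAt U (D x) x := by
    filter_upwards [ae_all_iff.2 fun i => (h i).ae_hasDerivAt] with x hx
    have hp : HasDerivAt (fun y i => (c : ℂ) * ψ i y) (fun i => (c : ℂ) * dψ i x) x :=
      hasDerivAt_pi.2 fun i => (hx i).const_mul _
    exact ((PiLp.continuousLinearEquiv 2 ℝ (fun _ : Fin N => ℂ)).symm
      |>.toContinuousLinearMap.hasFDerivAt.comp_hasDerivAt x hp)
  set g : ℝ → ℝ := fun x => ‖D x‖ ^ 2 - k * ‖U x‖ ^ 6 with hg
  have hgU : ∀ x, ‖U x‖ ^ 6 = (1 - 2 * ε) ^ 3 * (∑ i, ‖ψ i x‖ ^ 2) ^ 3 := fun x => by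
    rw [show (6:ℕ) = 2 * 3 from rfl, pow_mul, normSq_vecOf, hc, mul_pow]
  have hi1 : Integrable (fun x => ‖D x‖ ^ 2) := by
    simp only [hDdef, normSq_vecOf]
    exact (integrable_finsetSum _ fun i _ => (h i).integrable_deriv_normSq).const_mul _
  have hi2 : Integrable (fun x => ‖U x‖ ^ 6) := by
    simp only [hgU]; exact (integrable_density_cube h).const_mul _
  have hgi : Integrable g := hi1.sub (hi2.const_mul k)
  have dom : ∀ x, InDom ε (G x) := inDom_gram hc h horth
  choose M hM using fun i => (h i).exists_bound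
  set R : ℝ := √(c ^ 2 * ∑ i, M i ^ 2) with hR
  have hUR : ∀ x, U x ∈ Metric.closedBall (0 : Vec N) R := fun x => by
    rw [mem_closedBall_zero_iff, hR]
    refine Real.le_sqrt_of_sq_le ?_
    rw [normSq_vecOf]
    exact mul_le_mul_of_nonneg_left
      (Finset.sum_le_sum fun i _ => pow_le_pow_left₀ (norm_nonneg _) (hM i x) 2) (sq_nonneg _)
  obtain ⟨L, hL⟩ := exists_lipschitz_calib N K hε R
  have hUdiff : ∀ x y : ℝ, U y - U x = ∫ t in x..y, D t := by
    intro x y
    have hpi : (fun i => ∫ t in x..y, (c : ℂ) * dψ i t) =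
        fun i => (c : ℂ) * ψ i y - (c : ℂ) * ψ i x := by
      funext i; rw [intervalIntegral.integral_const_mul, (h i).2.2 x y]; ring
    have e := (PiLp.continuousLinearEquiv 2 ℝ (fun _ : Fin N => ℂ)).symm
      |>.toContinuousLinearMap.intervalIntegral_comp_comm (μ := volume) (a := x) (b := y)
        (f := fun t i => (c : ℂ) * dψ i t) ?_
    · rw [show (∫ t in x..y, D t) = _ from e]
      rw [show (∫ t in x..y, fun i => (c : ℂ) * dψ i t) =
          fun i => (c : ℂ) * ψ i y - (c : ℂ) * ψ i x from ?_]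
      · ext i; simp [U, vecOf]
      · funext i
        rw [← congrFun hpi i]
        refine ((ContinuousLinearMap.proj (R := ℝ) (φ := fun _ : Fin N => ℂ) i)
          |>.intervalIntegral_comp_comm ?_).symm
        exact intervalIntegrable_iff.2 (Integrable.of_eval fun j =>
          intervalIntegrable_iff.1 (((h j).intervalIntegrable x y).const_mul _))
    · exact intervalIntegrable_iff.2 (Integrable.of_eval fun j =>
        intervalIntegrable_iff.1 (((h j).intervalIntegrable x y).const_mul _))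
  have hnD : ∀ x y, IntervalIntegrable (fun t => ‖D t‖) volume x y := by
    intro x y
    refine (IntervalIntegrable.norm ?_)
    exact ((PiLp.continuousLinearEquiv 2 ℝ (fun _ : Fin N => ℂ)).symm
      |>.toContinuousLinearMap.integrable_comp (intervalIntegrable_iff.1
        (intervalIntegrable_iff.2 (Integrable.of_eval fun j =>
          intervalIntegrable_iff.1 (((h j).intervalIntegrable x y).const_mul (c : ℂ))))) |>
      intervalIntegrable_iff.2)
  have hrk := integrable_rk_vecOf c h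
  set w : ℝ → ℝ := fun t => (L : ℝ) * (‖D t‖ + ‖rk (U t)‖) with hw
  have hwi : ∀ x y, IntervalIntegrable w volume x y := fun x y =>
    ((hnD x y).add hrk.norm.intervalIntegrable).const_mul _
  have hFlip : ∀ x y : ℝ, x ≤ y → |F y - F x| ≤ ∫ t in x..y, w t := by
    intro x y hxy
    have h1 := hL.dist_le_mul (U y, G y) ⟨hUR y, dom y⟩ (U x, G x) ⟨hUR x, dom x⟩
    have h2 : dist (U y, G y) (U x, G x) ≤ ‖U y - U x‖ + ‖G y - G x‖ := by
      rw [Prod.dist_eq, dist_eq_norm, dist_eq_norm]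
      exact max_le (le_add_of_nonneg_right (norm_nonneg _))
        (le_add_of_nonneg_left (norm_nonneg _))
    have h3 : ‖U y - U x‖ ≤ ∫ t in x..y, ‖D t‖ := by
      rw [hUdiff]; exact intervalIntegral.norm_integral_le_integral_norm hxy
    have h4 : ‖G y - G x‖ ≤ ∫ t in x..y, ‖rk (U t)‖ := by
      have : G y - G x = ∫ t in x..y, rk (U t) := by
        rw [← intervalIntegral.integral_Iic_sub_Iic hrk.integrableOn hrk.integrableOn]
        simp only [G, gram]; abel
      rw [this]; exact intervalIntegral.norm_integral_le_integral_norm hxy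
    rw [Real.dist_eq] at h1
    calc |F y - F x| ≤ (L : ℝ) * dist (U y, G y) (U x, G x) := h1
      _ ≤ (L : ℝ) * ((∫ t in x..y, ‖D t‖) + ∫ t in x..y, ‖rk (U t)‖) :=
          mul_le_mul_of_nonneg_left (h2.trans (add_le_add h3 h4)) L.2
      _ = ∫ t in x..y, w t := by
          rw [hw, intervalIntegral.integral_const_mul,
            intervalIntegral.integral_add (hnD x y) hrk.norm.intervalIntegrable]
  have step : ∀ a b : ℝ, a ≤ b → F b - F a ≤ ∫ x in a..b, g x := by
    intro a b hab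
    have hac : AbsolutelyContinuousOnInterval F a b := by
      refine absolutelyContinuous_of_dist_le
        ((hwi a b).absolutelyContinuousOnInterval_intervalIntegral (c := a) left_mem_uIcc) ?_
      intro x _ y _
      rw [Real.dist_eq, Real.dist_eq,
        intervalIntegral.integral_interval_sub_left (hwi a x) (hwi a y)]
      rcases le_total y x with hyx | hyx
      · exact (hFlip y x hyx).trans (le_abs_self _)
      · rw [abs_sub_comm, intervalIntegral.integral_symm, abs_neg]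
        exact (hFlip x y hyx).trans (le_abs_self _)
    rw [← hac.integral_deriv_eq_sub]
    refine intervalIntegral.integral_mono_ae hab hac.intervalIntegrable_deriv
      hgi.intervalIntegrable ?_
    filter_upwards [hUae] with x hx
    obtain ⟨d, hd, hle⟩ := calib_deriv_le hε hK hx (hasDerivAt_gram ε c h x) (dom x)
    rw [show deriv F x = d from hd.deriv]
    exact hle
  obtain ⟨C, hC⟩ := exists_calib_bound N K hε
  obtain ⟨a, b, ha, hb, ha0, hb0⟩ := exists_seq_small
    (F := fun x => ‖U x‖ ^ 2) (by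
      simp only [hUdef, normSq_vecOf]
      exact (integrable_finsetSum _ fun i _ => (h i).integrable_normSq).const_mul _)
    (fun x => sq_nonneg _)
  have zeroAt : ∀ s : ℕ → ℝ, Tendsto (fun n => ‖U (s n)‖ ^ 2) atTop (𝓝 0) →
      Tendsto (fun n => F (s n)) atTop (𝓝 0) := by
    intro s hs
    refine squeeze_zero_norm (fun n => hC _ _ (dom (s n))) ?_
    have := (hs.pow 2).const_mul C
    simpa [← pow_mul] using this
  have hlim : Tendsto (fun n => (∫ x in a n..b n, g x) - (F (b n) - F (a n))) atTop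
      (𝓝 ((∫ x, g x) - (0 - 0))) :=
    (intervalIntegral_tendsto_integral hgi ha hb).sub ((zeroAt b hb0).sub (zeroAt a ha0))
  have hfinal : 0 ≤ ∫ x, g x := by
    have : 0 ≤ (∫ x, g x) - (0 - 0) := by
      refine ge_of_tendsto hlim ?_
      filter_upwards [ha.eventually (eventually_le_atBot 0), hb.eventually (eventually_ge_atTop 0)]
        with n h1 h2
      linarith [step (a n) (b n) (h1.trans h2)]
    simpa using this
  simp only [hg] at hfinal
  rw [integral_sub hi1 (hi2.const_mul k), integral_const_mul] at hfinal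
  simp only [hgU, hDdef, normSq_vecOf, hc, integral_const_mul] at hfinal
  rw [integral_finsetSum _ fun i _ => (h i).integrable_deriv_normSq] at hfinal
  have hpos : 0 < 1 - 2 * ε := by linarith
  nlinarith [hfinal]

end main

/-- For `L²`-orthonormal `H¹` functions, the kinetic energy dominates `π²/4 ∫ ρ³`. -/
theorem kinetic_inequality {N : ℕ} (ψ dψ : Fin N → ℝ → ℂ) (h : ∀ i, MemH1 (ψ i) (dψ i))
    (horth : ∀ i j, ∫ x, starRingEnd ℂ (ψ i x) * ψ j x = if i = j then 1 else 0) :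
    Integrable (fun x => (∑ i, ‖ψ i x‖ ^ 2) ^ 3) ∧
      Real.pi ^ 2 / 4 * ∫ x, (∑ i, ‖ψ i x‖ ^ 2) ^ 3 ≤ ∑ i, ∫ x, ‖dψ i x‖ ^ 2 := by
  refine ⟨integrable_density_cube h, ?_⟩
  have e0 : Tendsto (fun n : ℕ => 1 / ((n : ℝ) + 1)) atTop (𝓝 0) :=
    tendsto_one_div_add_atTop_nhds_zero_nat
  have hlim : Tendsto (fun n : ℕ => (Real.pi ^ 2 - 1 / ((n : ℝ) + 1)) / 4 *
      (1 - 2 * (1 / ((n : ℝ) + 1))) ^ 2 * ∫ x, (∑ i, ‖ψ i x‖ ^ 2) ^ 3) atTop
      (𝓝 ((Real.pi ^ 2 - 0) / 4 * (1 - 2 * 0) ^ 2 * ∫ x, (∑ i, ‖ψ i x‖ ^ 2) ^ 3)) :=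
    (((tendsto_const_nhds.sub e0).div_const 4).mul
      ((tendsto_const_nhds.sub (e0.const_mul 2)).pow 2)).mul_const _
  have := le_of_tendsto hlim (by
    filter_upwards [eventually_ge_atTop 2] with n hn
    have hn' : (2:ℝ) ≤ n := by exact_mod_cast hn
    refine kinetic_approx (by positivity) ?_ (by positivity) h horth
    rw [div_lt_iff₀ (by positivity)]; linarith)
  simpa using this

end Vale.Agent.P371
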