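import Mathlib

/-!
# P371: definitions for the Lieb-Thirring inequality at exponent one, scalar potentials
-/

namespace Vale.Agent.P371

open MeasureTheory

/-- `f` is the continuous representative of an element of `H¹(ℝ; ℂ)` with weak derivative `g`:
both are square integrable and `f` is the indefinite integral of `g`. -/
def MemH1 (f g : ℝ → ℂ) : Prop :=
  MemLp f 2 volume ∧ MemLp g 2 volume ∧ ∀ a b : ℝ, ∫ x in a..b, g x = f b - f a

/-- A scalar potential for the exponent one: nonnegative, measurable, with integrable `W^(3/2)`. -/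
def IsPotential (W : ℝ → ℝ) : Prop :=
  Measurable W ∧ (∀ x, 0 ≤ W x) ∧ Integrable (fun x => W x ^ (3 / 2 : ℝ))

/-- `ψ` is an eigenfunction with eigenvalue `μ` of the operator of the form
`∫ |ψ'|² - ∫ W |ψ|²` on `H¹`. -/
def IsEigenfunction (W : ℝ → ℝ) (μ : ℝ) (ψ : ℝ → ℂ) : Prop :=
  ∃ dψ : ℝ → ℂ, MemH1 ψ dψ ∧ ∀ φ dφ : ℝ → ℂ, MemH1 φ dφ →
    (∫ x, starRingEnd ℂ (dφ x) * dψ x) - ∫ x, (W x : ℂ) * (starRingEnd ℂ (φ x) * ψ x) =
      (μ : ℂ) * ∫ x, starRingEnd ℂ (φ x) * ψ x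

/-- An `L²`-orthonormal family of eigenfunctions with negative eigenvalues. -/
def IsBoundStates (W : ℝ → ℝ) {N : ℕ} (μ : Fin N → ℝ) (ψ : Fin N → ℝ → ℂ) : Prop :=
  (∀ i, μ i < 0 ∧ IsEigenfunction W (μ i) (ψ i)) ∧
    ∀ i j, ∫ x, starRingEnd ℂ (ψ i x) * ψ j x = if i = j then 1 else 0

/-- All ratios of a sum of absolute values of negative eigenvalues to `∫ W^(3/2)`. -/
def ratios : Set ℝ :=
  {r | ∃ (W : ℝ → ℝ) (N : ℕ) (μ : Fin N → ℝ) (ψ : Fin N → ℝ → ℂ),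
    IsPotential W ∧ 0 < ∫ x, W x ^ (3 / 2 : ℝ) ∧ IsBoundStates W μ ψ ∧
      r = (∑ i, |μ i|) / ∫ x, W x ^ (3 / 2 : ℝ)}

end Vale.Agent.P371
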