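import Vale.Agent.P371.Basic

/-!
# P371: the scalar inequality, from the partial fractions of the cotangent and `cos ≤ sinc`
-/

namespace Vale.Agent.P371

open Filter Topology

lemma sum_Icc_symm (f : ℤ → ℝ) (K : ℕ) :
    ∑ k ∈ Finset.Icc (-(K : ℤ)) K, f k =
      f 0 + ∑ n ∈ Finset.range K, (f (n + 1) + f (-(n + 1))) := by
  induction K with
  | zero => simp
  | succ K ih =>
    have h : Finset.Icc (-((K + 1 : ℕ) : ℤ)) (K + 1 : ℕ) =
        insert ((K : ℤ) + 1) (insert (-((K : ℤ) + 1)) (Finset.Icc (-(K : ℤ)) K)) := by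
      ext k
      simp only [Finset.mem_Icc, Finset.mem_insert]
      omega
    rw [h, Finset.sum_insert (by simp; omega), Finset.sum_insert (by simp), ih,
      Finset.sum_range_succ]
    ring

/-- The truncated partial fraction sum of the cotangent. -/
noncomputable def cotSum (K : ℕ) (x : ℝ) : ℝ :=
  ∑ k ∈ Finset.Icc (-(K : ℤ)) K, 1 / (x + k)

/-- The truncated sum of the products. -/
noncomputable def prodSum (K : ℕ) (x y : ℝ) : ℝ :=
  ∑ k ∈ Finset.Icc (-(K : ℤ)) K, 1 / (x + k) * (1 / (y + k))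

lemma add_int_ne_zero {x : ℝ} (h0 : 0 < x) (h1 : x < 1) (k : ℤ) : x + k ≠ 0 := by
  intro h
  have a : (k : ℝ) < ((0 : ℤ) : ℝ) := by push_cast; linarith
  have b : ((-1 : ℤ) : ℝ) < k := by push_cast; linarith
  have a' := Int.cast_lt.mp a
  have b' := Int.cast_lt.mp b
  omega

lemma cotSum_eq (K : ℕ) (x : ℝ) :
    cotSum K x = 1 / x + ∑ n ∈ Finset.range K,
      (1 / (x - (n + 1 : ℝ)) + 1 / (x + (n + 1 : ℝ))) := by
  unfold cotSum
  rw [sum_Icc_symm]
  push_cast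
  congr 1
  · simp
  · refine Finset.sum_congr rfl fun n _ => ?_
    ring

lemma tendsto_cotSum {x : ℝ} (h0 : 0 < x) (h1 : x < 1) :
    Tendsto (fun K => cotSum K x) atTop (𝓝 (Real.pi * Real.cot (Real.pi * x))) := by
  have hx : (x : ℂ) ∈ Complex.integerComplement := by
    rw [Complex.mem_integerComplement_iff]
    rintro ⟨n, hn⟩
    have hn' : (n : ℝ) = x := by exact_mod_cast hn
    exact add_int_ne_zero h0 h1 (-n) (by push_cast; linarith)
  have h := (Complex.continuous_re.tendsto _).comp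
    ((tendsto_logDeriv_euler_cot_sub hx).const_add (1 / (x : ℂ)))
  have e1 : (1 / (x : ℂ) + ((Real.pi : ℂ) * Complex.cot (Real.pi * x) - 1 / (x : ℂ))) =
      ((Real.pi * Real.cot (Real.pi * x) : ℝ) : ℂ) := by
    push_cast
    ring
  rw [e1] at h
  simp only [Complex.ofReal_re] at h
  refine h.congr fun K => ?_
  rw [cotSum_eq]
  simp only [Function.comp, cotTerm]
  rw [show (1 / (x : ℂ) + ∑ j ∈ Finset.range K,
      (1 / ((x : ℂ) - ((j : ℂ) + 1)) + 1 / ((x : ℂ) + ((j : ℂ) + 1)))) =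
    ((1 / x + ∑ j ∈ Finset.range K,
      (1 / (x - (j + 1 : ℝ)) + 1 / (x + (j + 1 : ℝ))) : ℝ) : ℂ) by push_cast; rfl]
  exact Complex.ofReal_re _

lemma telescope (K L : ℕ) (hKL : K ≤ L) (hK : 1 ≤ K) :
    ∑ n ∈ Finset.Ico K L, 1 / ((n : ℝ) * (n + 1)) ≤ 1 / (K : ℝ) := by
  have hKr : (1 : ℝ) ≤ K := by exact_mod_cast hK
  have e : ∀ M : ℕ, K ≤ M → ∑ n ∈ Finset.Ico K M, 1 / ((n : ℝ) * (n + 1)) = 1 / (K : ℝ) - 1 / M := by
    intro M hM
    induction M, hM using Nat.le_induction with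
    | base => simp
    | succ M hM ih =>
      have : (1 : ℝ) ≤ M := by exact_mod_cast hK.trans hM
      rw [Finset.sum_Ico_succ_top hM, ih]
      push_cast
      field_simp
      ring
  rw [e L hKL]
  have : (0 : ℝ) ≤ 1 / (L : ℝ) := by positivity
  linarith

lemma cotTerm_bounds {x : ℝ} (h0 : 0 < x) (h1 : x < 1) (n : ℕ) (hn : 1 ≤ n) :
    1 / (x - (n + 1 : ℝ)) + 1 / (x + (n + 1 : ℝ)) ≤ 0 ∧
      -(2 / ((n : ℝ) * (n + 1))) ≤ 1 / (x - (n + 1 : ℝ)) + 1 / (x + (n + 1 : ℝ)) := by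
  have hn' : (1 : ℝ) ≤ n := by exact_mod_cast hn
  have h2 : (0 : ℝ) < (n + 1) ^ 2 - x ^ 2 := by nlinarith
  have e : 1 / (x - (n + 1 : ℝ)) + 1 / (x + (n + 1 : ℝ)) = -(2 * x / ((n + 1 : ℝ) ^ 2 - x ^ 2)) := by
    have a : x - (n + 1 : ℝ) ≠ 0 := by linarith
    have b : x + (n + 1 : ℝ) ≠ 0 := by positivity
    rw [div_add_div _ _ a b, neg_div', div_eq_div_iff (mul_ne_zero a b) h2.ne']
    ring
  rw [e]
  refine ⟨neg_nonpos.mpr (by positivity), neg_le_neg ?_⟩
  rw [div_le_div_iff₀ h2 (by positivity)]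
  nlinarith

lemma cotSum_step {x : ℝ} (h0 : 0 < x) (h1 : x < 1) {K L : ℕ} (hK : 1 ≤ K) (hKL : K ≤ L) :
    cotSum L x ≤ cotSum K x ∧ cotSum K x ≤ cotSum L x + 2 / (K : ℝ) := by
  have e : cotSum L x = cotSum K x + ∑ n ∈ Finset.Ico K L,
      (1 / (x - (n + 1 : ℝ)) + 1 / (x + (n + 1 : ℝ))) := by
    rw [cotSum_eq, cotSum_eq, ← Finset.sum_range_add_sum_Ico _ hKL]
    ring
  have hb := fun n (hn : n ∈ Finset.Ico K L) =>
    cotTerm_bounds h0 h1 n (hK.trans (Finset.mem_Ico.mp hn).1)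
  have u := Finset.sum_le_sum fun n hn => (hb n hn).1
  have l := Finset.sum_le_sum fun n hn => (hb n hn).2
  have t := telescope K L hKL hK
  have s : ∑ n ∈ Finset.Ico K L, -(2 / ((n : ℝ) * (n + 1))) =
      -2 * ∑ n ∈ Finset.Ico K L, 1 / ((n : ℝ) * (n + 1)) := by
    rw [Finset.mul_sum]
    refine Finset.sum_congr rfl fun n _ => ?_
    ring
  simp only [Finset.sum_const_zero] at u
  rw [s] at l
  have r : (2 : ℝ) / K = 2 * (1 / K) := by ring
  constructor <;> linarith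

lemma cotSum_approx {x : ℝ} (h0 : 0 < x) (h1 : x < 1) {K : ℕ} (hK : 1 ≤ K) :
    Real.pi * Real.cot (Real.pi * x) ≤ cotSum K x ∧
      cotSum K x ≤ Real.pi * Real.cot (Real.pi * x) + 2 / (K : ℝ) :=
  ⟨le_of_tendsto (tendsto_cotSum h0 h1)
      ((eventually_ge_atTop K).mono fun _L hL => (cotSum_step h0 h1 hK hL).1),
    ge_of_tendsto ((tendsto_cotSum h0 h1).add_const (2 / (K : ℝ)))
      ((eventually_ge_atTop K).mono fun _L hL => (cotSum_step h0 h1 hK hL).2)⟩

lemma cot_abs_le {ε x : ℝ} (hε : 0 < ε) (hx : x ∈ Set.Icc ε (1 - ε)) :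
    |Real.pi * Real.cot (Real.pi * x)| ≤ 1 / ε + 3 := by
  have h0 : 0 < x := hε.trans_le hx.1
  have h1 : x < 1 := by linarith [hx.2]
  have hA := cotSum_approx h0 h1 (le_refl 1)
  have e : cotSum 1 x = 1 / x + (1 / (x - 1) + 1 / (x + 1)) := by
    simp [cotSum_eq]
  have a1 : 1 / x ≤ 1 / ε := one_div_le_one_div_of_le hε hx.1
  have a2 : (0 : ℝ) ≤ 1 / x := by positivity
  have a3 : 1 / (x - 1) ≤ 0 := by
    apply div_nonpos_of_nonneg_of_nonpos <;> linarith
  have a4 : -(1 / ε) ≤ 1 / (x - 1) := by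
    have : 1 / (1 - x) ≤ 1 / ε := one_div_le_one_div_of_le hε (by linarith [hx.2])
    have : 1 / (x - 1) = -(1 / (1 - x)) := by rw [← div_neg, neg_sub]
    linarith
  have a5 : 1 / (x + 1) ≤ 1 := by rw [div_le_one (by linarith)]; linarith
  have a6 : (0 : ℝ) ≤ 1 / (x + 1) := by positivity
  rw [abs_le]
  norm_num at hA
  constructor <;> linarith [hA.1, hA.2]

lemma prod_term {x y : ℝ} (hx0 : 0 < x) (hx1 : x < 1) (hy0 : 0 < y) (hy1 : y < 1)
    (n : ℕ) (hn : 1 ≤ n) :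
    1 / (x + (n + 1 : ℝ)) * (1 / (y + (n + 1 : ℝ))) +
      1 / (x - (n + 1 : ℝ)) * (1 / (y - (n + 1 : ℝ))) ≤ 2 / ((n : ℝ) * (n + 1)) +
        2 / ((n : ℝ) * (n + 1)) := by
  have hn' : (1 : ℝ) ≤ n := by exact_mod_cast hn
  apply add_le_add
  · rw [div_mul_div_comm, div_le_div_iff₀ (by positivity) (by positivity)]
    nlinarith
  · rw [div_mul_div_comm, ← neg_mul_neg (x - (n + 1 : ℝ)), neg_sub, neg_sub,
      div_le_div_iff₀ (by nlinarith) (by positivity)]
    nlinarith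

lemma prodSum_step {x y : ℝ} (hx0 : 0 < x) (hx1 : x < 1) (hy0 : 0 < y) (hy1 : y < 1)
    {K L : ℕ} (hK : 1 ≤ K) (hKL : K ≤ L) :
    prodSum L x y ≤ prodSum K x y + 4 / (K : ℝ) := by
  have e : ∀ M : ℕ, prodSum M x y = 1 / x * (1 / y) + ∑ n ∈ Finset.range M,
      (1 / (x + (n + 1 : ℝ)) * (1 / (y + (n + 1 : ℝ))) +
        1 / (x - (n + 1 : ℝ)) * (1 / (y - (n + 1 : ℝ)))) := by
    intro M
    unfold prodSum
    rw [sum_Icc_symm]
    push_cast
    simp [sub_eq_add_neg, add_comm]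
  rw [e, e, ← Finset.sum_range_add_sum_Ico _ hKL]
  have u := Finset.sum_le_sum fun n (hn : n ∈ Finset.Ico K L) =>
    prod_term hx0 hx1 hy0 hy1 n (hK.trans (Finset.mem_Ico.mp hn).1)
  have s : ∑ n ∈ Finset.Ico K L, (2 / ((n : ℝ) * (n + 1)) + 2 / ((n : ℝ) * (n + 1))) =
      4 * ∑ n ∈ Finset.Ico K L, 1 / ((n : ℝ) * (n + 1)) := by
    rw [Finset.mul_sum]
    refine Finset.sum_congr rfl fun n _ => ?_
    ring
  rw [s] at u
  have t := telescope K L hKL hK
  have r : (4 : ℝ) / K = 4 * (1 / K) := by ring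
  linarith

lemma prodSum_exact {x y : ℝ} (hx0 : 0 < x) (hx1 : x < 1) (hy0 : 0 < y) (hy1 : y < 1)
    (hne : x ≠ y) (K : ℕ) : prodSum K x y = (cotSum K x - cotSum K y) / (y - x) := by
  rw [eq_div_iff (sub_ne_zero.mpr (Ne.symm hne)), prodSum, cotSum, cotSum, Finset.sum_mul,
    ← Finset.sum_sub_distrib]
  refine Finset.sum_congr rfl fun k _ => ?_
  have a := add_int_ne_zero hx0 hx1 k
  have b := add_int_ne_zero hy0 hy1 k
  field_simp
  ring

lemma cos_le_sin_div {z : ℝ} (h0 : 0 < z) (h1 : z < Real.pi) :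
    Real.cos z ≤ Real.sin z / z := by
  rw [le_div_iff₀ h0]
  rcases lt_or_ge z (Real.pi / 2) with h | h
  · have c : 0 < Real.cos z := Real.cos_pos_of_mem_Ioo ⟨by linarith [Real.pi_pos], h⟩
    have := Real.le_tan h0.le h
    rw [Real.tan_eq_sin_div_cos, le_div_iff₀ c] at this
    linarith
  · have : Real.cos z ≤ 0 :=
      Real.cos_nonpos_of_pi_div_two_le_of_le h (by linarith [Real.pi_pos])
    nlinarith [Real.sin_nonneg_of_nonneg_of_le_pi h0.le h1.le]

lemma trig_key {x y : ℝ} (hx0 : 0 < x) (hx1 : x < 1) (hy0 : 0 < y) (hy1 : y < 1) (hlt : x < y) :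
    (Real.pi * Real.cot (Real.pi * x)) * (Real.pi * Real.cot (Real.pi * y)) + Real.pi ^ 2 ≤
      (Real.pi * Real.cot (Real.pi * x) - Real.pi * Real.cot (Real.pi * y)) / (y - x) := by
  have hp := Real.pi_pos
  have sx : 0 < Real.sin (Real.pi * x) :=
    Real.sin_pos_of_pos_of_lt_pi (by positivity) (by nlinarith)
  have sy : 0 < Real.sin (Real.pi * y) :=
    Real.sin_pos_of_pos_of_lt_pi (by positivity) (by nlinarith)
  have hz0 : 0 < Real.pi * y - Real.pi * x := by nlinarith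
  have hz := cos_le_sin_div hz0 (by nlinarith)
  rw [Real.cos_sub, Real.sin_sub, le_div_iff₀ hz0] at hz
  rw [Real.cot_eq_cos_div_sin, Real.cot_eq_cos_div_sin, le_div_iff₀ (sub_pos.mpr hlt)]
  field_simp
  nlinarith [hz]

lemma pair_offdiag {ε x y : ℝ} (hε : 0 < ε) (hx : x ∈ Set.Icc ε (1 - ε))
    (hy : y ∈ Set.Icc ε (1 - ε)) (hne : x ≠ y) {K : ℕ} (hK : 1 ≤ K) :
    cotSum K x * cotSum K y + Real.pi ^ 2 - prodSum K x y ≤
      (4 * (1 / ε + 3) + 8) / (K : ℝ) := by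
  have hx0 : 0 < x := hε.trans_le hx.1
  have hx1 : x < 1 := by linarith [hx.2]
  have hy0 : 0 < y := hε.trans_le hy.1
  have hy1 : y < 1 := by linarith [hy.2]
  set A := Real.pi * Real.cot (Real.pi * x) with hA
  set B := Real.pi * Real.cot (Real.pi * y) with hB
  have hAb : |A| ≤ 1 / ε + 3 := cot_abs_le hε hx
  have hBb : |B| ≤ 1 / ε + 3 := cot_abs_le hε hy
  obtain ⟨a0, a1⟩ := cotSum_approx hx0 hx1 hK
  obtain ⟨b0, b1⟩ := cotSum_approx hy0 hy1 hK
  have lim : Tendsto (fun L => prodSum L x y) atTop (𝓝 ((A - B) / (y - x))) := by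
    refine (((tendsto_cotSum hx0 hx1).sub (tendsto_cotSum hy0 hy1)).div_const _).congr fun L => ?_
    rw [prodSum_exact hx0 hx1 hy0 hy1 hne]
  have low : (A - B) / (y - x) ≤ prodSum K x y + 4 / (K : ℝ) :=
    le_of_tendsto lim ((eventually_ge_atTop K).mono fun _L hL =>
      prodSum_step hx0 hx1 hy0 hy1 hK hL)
  have key : A * B + Real.pi ^ 2 ≤ (A - B) / (y - x) := by
    rcases lt_or_gt_of_ne hne with h | h
    · exact trig_key hx0 hx1 hy0 hy1 h
    · have := trig_key hy0 hy1 hx0 hx1 h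
      rw [← hA, ← hB] at this
      have e : (A - B) / (y - x) = (B - A) / (x - y) := by
        rw [← neg_sub B A, ← neg_sub x y, neg_div_neg_eq]
      rw [e, mul_comm]
      exact this
  have hKr : (1 : ℝ) ≤ K := by exact_mod_cast hK
  rw [abs_le] at hAb hBb
  set u := cotSum K x - A with hu
  set v := cotSum K y - B with hv
  have u0 : 0 ≤ u := by linarith
  have u1 : u ≤ 2 / (K : ℝ) := by linarith
  have v0 : 0 ≤ v := by linarith
  have v1 : v ≤ 2 / (K : ℝ) := by linarith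
  have d2 : 2 / (K : ℝ) ≤ 2 := by rw [div_le_iff₀ (by linarith)]; linarith
  have e : cotSum K x * cotSum K y = A * B + u * B + v * A + u * v := by rw [hu, hv]; ring
  have p1 : u * B ≤ 2 / (K : ℝ) * (1 / ε + 3) :=
    (mul_le_mul_of_nonneg_left hBb.2 u0).trans
      (mul_le_mul_of_nonneg_right u1 (by positivity))
  have p2 : v * A ≤ 2 / (K : ℝ) * (1 / ε + 3) :=
    (mul_le_mul_of_nonneg_left hAb.2 v0).trans
      (mul_le_mul_of_nonneg_right v1 (by positivity))
  have p3 : u * v ≤ 2 / (K : ℝ) * 2 :=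
    mul_le_mul u1 (v1.trans d2) v0 (by positivity)
  have e2 : (4 * (1 / ε + 3) + 8) / (K : ℝ) =
      2 / (K : ℝ) * (1 / ε + 3) + 2 / (K : ℝ) * (1 / ε + 3) + 2 / (K : ℝ) * 2 + 4 / (K : ℝ) := by
    ring
  linarith

/-- For every margin and tolerance some truncation satisfies the scalar inequality. -/
theorem exists_pairBound {ε η : ℝ} (hε : 0 < ε) (hη : 0 < η) : ∃ K : ℕ, PairBound K ε η := by
  obtain ⟨n, hn⟩ := exists_nat_gt ((4 * (1 / (ε / 2) + 3) + 8) / η)
  have hpos : 0 < (4 * (1 / (ε / 2) + 3) + 8) / η := by positivity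
  have hnpos : (0 : ℝ) < n := hpos.trans hn
  have hn1 : 1 ≤ n := by exact_mod_cast hnpos
  have hbound : (4 * (1 / ε + 3) + 8) / (n : ℝ) ≤ η := by
    rw [div_le_iff₀ hnpos]
    rw [div_lt_iff₀ hη] at hn
    have : 1 / ε ≤ 1 / (ε / 2) := one_div_le_one_div_of_le (half_pos hε) (half_le_self hε.le)
    linarith
  refine ⟨n, fun x y hx hy => ?_⟩
  change cotSum n x * cotSum n y + Real.pi ^ 2 - prodSum n x y ≤ η
  rcases eq_or_ne x y with rfl | hne
  · have hx0 : 0 < x := hε.trans_le hx.1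
    have hx1 : x < 1 := by linarith [hx.2]
    have hc : ∀ k : ℤ, ContinuousAt (fun z : ℝ => 1 / (z + k)) x := fun k =>
      continuousAt_const.div (continuousAt_id.add continuousAt_const) (add_int_ne_zero hx0 hx1 k)
    have cC : ContinuousAt (cotSum n) x := tendsto_finsetSum _ fun k _ => hc k
    have cP : ContinuousAt (fun z => prodSum n x z) x :=
      tendsto_finsetSum _ fun k _ => (hc k).const_mul _
    have cF : ContinuousAt
        (fun z => cotSum n x * cotSum n z + Real.pi ^ 2 - prodSum n x z) x :=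
      ((cC.const_mul _).add continuousAt_const).sub cP
    have hz : Tendsto (fun i : ℕ => x + ε / 2 * (1 / ((i : ℝ) + 1))) atTop (𝓝 x) := by
      simpa using (tendsto_one_div_add_atTop_nhds_zero_nat.const_mul (ε / 2)).const_add x
    refine le_of_tendsto (cF.tendsto.comp hz) (Eventually.of_forall fun i => ?_)
    have d0 : 0 < ε / 2 * (1 / ((i : ℝ) + 1)) := by positivity
    have d1 : ε / 2 * (1 / ((i : ℝ) + 1)) ≤ ε / 2 := by
      refine mul_le_of_le_one_right (by positivity) ?_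
      rw [div_le_one (by positivity)]
      exact le_add_of_nonneg_left (Nat.cast_nonneg i)
    have e : 1 / (ε / 2) = 2 * (1 / ε) := by field_simp
    have := pair_offdiag (half_pos hε) (x := x) (y := x + ε / 2 * (1 / ((i : ℝ) + 1)))
      ⟨by linarith [hx.1], by linarith [hx.2]⟩ ⟨by linarith [hx.1], by linarith [hx.2]⟩
      (by linarith) hn1
    refine this.trans ?_
    rw [div_le_iff₀ hnpos]
    rw [div_lt_iff₀ hη] at hn
    linarith
  · exact (pair_offdiag hε hx hy hne hn1).trans hbound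

end Vale.Agent.P371
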